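import Crest.Agent.N207.S.Gc4_Mg
import Crest.Agent.N207.S.Ex.JS01
import Crest.Agent.N207.S.Ex.Bd
import Crest.Agent.N207.S.Ex.Defs
import Crest.Agent.N207.S.Ex.MaxP
import Crest.Agent.N250.Or.Had
import Crest.Agent.N207.S.Gc1

-- ▼ part N207/S/Top/Gl4
section

/-!
Row 207, S0320: all analytic blocks imply the statement (helper55).
-/

set_option autoImplicit false

namespace Crest.Agent.N207.S.Top

theorem goal (hF : Ex.FlowStmt) (hN : GaNear) (hG : GaFin) (hR : Rg.RegStmt) (hO : Out.OuterStmt)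
    (hI : InnerStmt) (hP : In.PostStmt) (hD : DataStmt) : ∃ q : ℕ, 10 ≤ q ∧ Gb.Goal q := by
  obtain ⟨q, hq, _, _, _, _, _, _, _, h⟩ := glue hF hN hG hR hO hI hP hD
  exact ⟨q, hq, Gb.geo_of Geo.g1 Gc.g3 h⟩

end Crest.Agent.N207.S.Top
end

-- ▼ part N207/S/Ex/Lim
section

/-!
Row 207, S0320, block EX: the limit of a time-discrete scheme along an ultrafilter.
-/

set_option autoImplicit false
set_option linter.unusedSectionVars false

open Set Filter
open scoped Topology ContDiff NNReal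

noncomputable section
namespace Crest.Agent.N207.S.Ex

open Crest.Agent.N207.X

section
variable {V : Type*} [NormedAddCommGroup V] [NormedSpace ℝ V]

lemma tele {f : ℕ → V} {c : ℝ} {n m : ℕ} (hnm : n ≤ m)
    (h : ∀ i, n ≤ i → i < m → ‖f (i + 1) - f i‖ ≤ c) : ‖f m - f n‖ ≤ ((m : ℝ) - n) * c := by
  induction m, hnm using Nat.le_induction with
  | base => simp
  | succ m hm ih =>
    have h1 := ih fun i a b => h i a (by omega)
    have h2 := h m hm (by omega)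
    have h3 : f (m + 1) - f n = (f (m + 1) - f m) + (f m - f n) := by abel
    rw [h3]
    refine (norm_add_le_of_le h2 h1).trans (le_of_eq ?_)
    push_cast; ring

lemma tele2 {f : ℕ → V} {c : ℝ} (hc : 0 ≤ c) {n m i p : ℕ} (hi : n ≤ i) (hi' : i ≤ m) (hp : n ≤ p)
    (hp' : p ≤ m) (h : ∀ i, n ≤ i → i < m → ‖f (i + 1) - f i‖ ≤ c) :
    ‖f i - f p‖ ≤ ((m : ℝ) - n) * c := by
  have a1 : (n : ℝ) ≤ i := by exact_mod_cast hi
  have a2 : (i : ℝ) ≤ m := by exact_mod_cast hi'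
  have a3 : (n : ℝ) ≤ p := by exact_mod_cast hp
  have a4 : (p : ℝ) ≤ m := by exact_mod_cast hp'
  rcases le_total p i with e | e
  · refine (tele e fun k a b => h k (by omega) (by omega)).trans ?_
    exact mul_le_mul_of_nonneg_right (by linarith) hc
  · rw [norm_sub_rev]
    refine (tele e fun k a b => h k (by omega) (by omega)).trans ?_
    exact mul_le_mul_of_nonneg_right (by linarith) hc

lemma hasDerivWithinAt_of_sq {f : ℝ → V} {d : V} {s : Set ℝ} {x C : ℝ}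
    (h : ∀ y ∈ s, ‖f y - f x - (y - x) • d‖ ≤ C * (y - x) ^ 2) : HasDerivWithinAt f d s x := by
  rw [hasDerivWithinAt_iff_isLittleO, Asymptotics.isLittleO_iff]
  intro c hc
  have h1 : ∀ᶠ y in 𝓝 x, |C| * |y - x| < c := by
    have : Continuous fun y : ℝ => |C| * |y - x| := by fun_prop
    exact this.continuousAt.eventually_lt continuousAt_const (by simpa using hc)
  filter_upwards [self_mem_nhdsWithin, mem_nhdsWithin_of_mem_nhds h1] with y hy hy'
  refine (h y hy).trans ?_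
  rw [Real.norm_eq_abs, ← sq_abs, sq, ← mul_assoc]
  refine mul_le_mul_of_nonneg_right ?_ (abs_nonneg _)
  exact (mul_le_mul_of_nonneg_right (le_abs_self C) (abs_nonneg _)).trans hy'.le

lemma Bd.lip {g : ℝ → V} {c : ℝ} {j : ℕ} (hg : ContDiff ℝ ∞ g) (h : Bd (j + 1) c g) {x y : ℝ}
    (hx : x ∈ Icc (0 : ℝ) 1) (hy : y ∈ Icc (0 : ℝ) 1) :
    ‖iteratedDeriv j g y - iteratedDeriv j g x‖ ≤ c * |y - x| :=
  (convex_Icc (0 : ℝ) 1).norm_image_sub_le_of_norm_hasDerivWithin_le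
    (f' := fun z => iteratedDeriv (j + 1) g z) (fun z _ => by
      rw [iteratedDeriv_succ]
      exact (hda (contDiff_iter j hg) z).hasDerivWithinAt) (h (j + 1) le_rfl) hx hy

lemma Bd.taylor {g : ℝ → V} {c : ℝ} {j : ℕ} (hg : ContDiff ℝ ∞ g) (h : Bd (j + 2) c g) {x y : ℝ}
    (hx : x ∈ Icc (0 : ℝ) 1) (hy : y ∈ Icc (0 : ℝ) 1) :
    ‖iteratedDeriv j g y - iteratedDeriv j g x - (y - x) • iteratedDeriv (j + 1) g x‖ ≤
      c * (y - x) ^ 2 := by
  have hs : uIcc x y ⊆ Icc (0 : ℝ) 1 := uIcc_subset_Icc hx hy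
  have k := (convex_uIcc x y).norm_image_sub_le_of_norm_hasDerivWithin_le
    (f := fun z => iteratedDeriv j g z - z • iteratedDeriv (j + 1) g x)
    (f' := fun z => iteratedDeriv (j + 1) g z - iteratedDeriv (j + 1) g x) (C := c * |y - x|)
    (fun z _ => by
      have := ((hda (contDiff_iter j hg) z).fun_sub
        ((hasDerivAt_id z).smul_const (iteratedDeriv (j + 1) g x))).hasDerivWithinAt
        (s := uIcc x y)
      rw [← iteratedDeriv_succ, one_smul] at this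
      exact this)
    (fun z hz => (h.lip hg hx (hs hz)).trans
      (mul_le_mul_of_nonneg_left (abs_sub_left_of_mem_uIcc hz) h.nonneg))
    left_mem_uIcc right_mem_uIcc
  refine le_trans (le_of_eq ?_) (k.trans (le_of_eq ?_))
  · congr 1; rw [sub_smul]; abel
  · rw [Real.norm_eq_abs, mul_assoc, ← sq, sq_abs]

end

/-- the step size. -/
def hN (N : ℕ) : ℝ := 1 / ((N : ℝ) + 1)

/-- the index of the time `t`. -/
def idx (N : ℕ) (t : ℝ) : ℕ := ⌊t * ((N : ℝ) + 1)⌋₊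

lemma hN_pos (N : ℕ) : 0 < hN N := by unfold hN; positivity

lemma tendsto_hN : Tendsto hN atTop (𝓝 0) := tendsto_one_div_add_atTop_nhds_zero_nat

lemma idx_le (N : ℕ) {t : ℝ} (ht : 0 ≤ t) : idx N t * hN N ≤ t := by
  unfold idx hN
  rw [mul_one_div, div_le_iff₀ (by positivity)]
  exact Nat.floor_le (by positivity)

lemma idx_mono (N : ℕ) {s t : ℝ} (h : s ≤ t) : idx N s ≤ idx N t :=
  Nat.floor_le_floor (mul_le_mul_of_nonneg_right h (by positivity))

lemma tendsto_idx {t : ℝ} (ht : 0 ≤ t) : Tendsto (fun N => idx N t * hN N) atTop (𝓝 t) := by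
  have h1 : Tendsto (fun N => t - hN N) atTop (𝓝 t) := by simpa using tendsto_hN.const_sub t
  refine tendsto_of_tendsto_of_tendsto_of_le_of_le h1 tendsto_const_nhds (fun N => ?_)
    fun N => idx_le N ht
  have h2 := (Nat.lt_floor_add_one (t * ((N : ℝ) + 1))).le
  have h3 : t ≤ (idx N t + 1) * hN N := by
    unfold idx hN
    rwa [mul_one_div, le_div_iff₀ (by positivity)]
  simp only
  linarith

/-- a free ultrafilter on `ℕ`. -/
def UF : Ultrafilter ℕ := Ultrafilter.of atTop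

lemma UF_le : (UF : Filter ℕ) ≤ atTop := Ultrafilter.of_le _

variable {E : Type} [NormedAddCommGroup E] [NormedSpace ℝ E] [FiniteDimensional ℝ E]

lemma tendsto_UF {f : ℕ → E} {C : ℝ} (h : ∀ᶠ N in atTop, ‖f N‖ ≤ C) :
    Tendsto f UF (𝓝 (limUnder UF f)) := by
  have : ProperSpace E := FiniteDimensional.proper ℝ E
  obtain ⟨a, -, ha⟩ := (isCompact_closedBall (0 : E) C).ultrafilter_le_nhds (UF.map f) (by
    rw [le_principal_iff]
    exact (h.filter_mono UF_le).mono fun N hN => by simpa using hN)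
  exact tendsto_nhds_limUnder ⟨a, ha⟩

theorem scheme_limit {τ : ℝ} {w : ℕ → ℕ → ℝ → E} {F : ℝ × E → E → E → E} {c : ℕ → ℝ}
    {u0 : ℝ → E} {C0 : ℝ}
    (hF : ContDiff ℝ ∞ fun z : ℝ × E × E × E => F (z.1, z.2.1) z.2.2.1 z.2.2.2)
    (hw : ∀ N n, ContDiff ℝ ∞ (w N n)) (h0 : ∀ N, w N 0 = u0)
    (hB : ∀ j, ∀ᶠ N in atTop, ∀ n : ℕ, n * hN N ≤ τ → Bd j (c j) (w N n))
    (hI : ∀ j, ∃ C, 0 ≤ C ∧ (j = 0 → C = C0) ∧ ∀ᶠ N in atTop, ∀ n : ℕ, (n + 1 : ℕ) * hN N ≤ τ →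
      ∀ x ∈ Icc (0 : ℝ) 1, ‖iteratedDeriv j (w N (n + 1)) x - iteratedDeriv j (w N n) x‖ ≤
        hN N * C)
    (hE : ∀ᶠ N in atTop, ∀ n : ℕ, (n + 1 : ℕ) * hN N ≤ τ → ∀ x ∈ Icc (0 : ℝ) 1,
      w N (n + 1) x - w N n x = hN N • F (x, w N n x) (iteratedDeriv 1 (w N (n + 1)) x)
        (iteratedDeriv 2 (w N (n + 1)) x)) :
    ∃ D : ℕ → ℝ → ℝ → E, Tow 0 τ D ∧
      (Ev (Icc 0 τ) (Icc 0 1) (D 0) fun t y => F (y, D 0 t y) (D 1 t y) (D 2 t y)) ∧
      (∀ x ∈ Icc (0 : ℝ) 1, D 0 0 x = u0 x) ∧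
      ∀ t ∈ Icc 0 τ, ∀ x ∈ Icc (0 : ℝ) 1, ‖D 0 t x - u0 x‖ ≤ t * C0 ∧ ∀ j, ‖D j t x‖ ≤ c j := by
  have : ProperSpace E := FiniteDimensional.proper ℝ E
  let D : ℕ → ℝ → ℝ → E := fun j t x => limUnder UF fun N => iteratedDeriv j (w N (idx N t)) x
  have hB' : ∀ j, ∀ t ∈ Icc 0 τ, ∀ᶠ N in atTop, Bd j (c j) (w N (idx N t)) := fun j t ht =>
    (hB j).mono fun N hN => hN _ ((idx_le N ht.1).trans ht.2)
  have hT : ∀ j, ∀ t ∈ Icc 0 τ, ∀ x ∈ Icc (0 : ℝ) 1,
      Tendsto (fun N => iteratedDeriv j (w N (idx N t)) x) UF (𝓝 (D j t x)) := fun j t ht x hx =>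
    tendsto_UF ((hB' j t ht).mono fun N hN => hN j le_rfl x hx)
  have hstep : ∀ N (t : ℝ), t ∈ Icc 0 τ → ∀ i, i < idx N t → (i + 1 : ℕ) * hN N ≤ τ :=
    fun N t ht i hi => le_trans (mul_le_mul_of_nonneg_right (by exact_mod_cast hi)
      (hN_pos N).le) ((idx_le N ht.1).trans ht.2)
  have hdiff : ∀ s ∈ Icc 0 τ, ∀ t ∈ Icc 0 τ,
      Tendsto (fun N => ((idx N t : ℝ) - idx N s) * hN N) UF (𝓝 (t - s)) := fun s hs t ht => by
    simp only [sub_mul]
    exact ((tendsto_idx ht.1).sub (tendsto_idx hs.1)).mono_left UF_le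
  have hLt : ∀ j, ∃ C, 0 ≤ C ∧ (j = 0 → C = C0) ∧ ∀ s ∈ Icc 0 τ, ∀ t ∈ Icc 0 τ, s ≤ t →
      ∀ x ∈ Icc (0 : ℝ) 1, ‖D j t x - D j s x‖ ≤ (t - s) * C := fun j => by
    obtain ⟨C, pC, e0, hC⟩ := hI j
    refine ⟨C, pC, e0, fun s hs t ht hst x hx => ?_⟩
    refine le_of_tendsto_of_tendsto ((hT j t ht x hx).sub (hT j s hs x hx)).norm
      ((hdiff s hs t ht).mul_const C) ((hC.filter_mono UF_le).mono fun N hN' => ?_)
    simp only [mul_assoc]
    exact tele (f := fun i => iteratedDeriv j (w N i) x) (idx_mono N hst)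
      fun i _ hi => hN' i (hstep N t ht i hi) x hx
  have hD0 : ∀ x ∈ Icc (0 : ℝ) 1, 0 ≤ τ → D 0 0 x = u0 x := fun x hx hτ => by
    have := hT 0 0 ⟨le_rfl, hτ⟩ x hx
    simp only [idx, zero_mul, Nat.floor_zero, h0, iteratedDeriv_zero] at this
    exact tendsto_nhds_unique this tendsto_const_nhds
  have hbd : ∀ j, ∀ t ∈ Icc 0 τ, ∀ x ∈ Icc (0 : ℝ) 1, ‖D j t x‖ ≤ c j := fun j t ht x hx =>
    le_of_tendsto (hT j t ht x hx).norm
      (((hB' j t ht).filter_mono UF_le).mono fun N hN => hN j le_rfl x hx)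
  refine ⟨D, ⟨fun j => ?_, fun j t ht x hx => ?_⟩, fun t0 ht0 x hx => ?_, fun x hx => ?_,
    fun t ht x hx => ⟨?_, fun j => hbd j t ht x hx⟩⟩
  · obtain ⟨C, pC, -, hC⟩ := hLt j
    have hx : ∀ t ∈ Icc 0 τ, ∀ x ∈ Icc (0 : ℝ) 1, ∀ y ∈ Icc (0 : ℝ) 1,
        ‖D j t y - D j t x‖ ≤ c (j + 1) * |y - x| := fun t ht x hx y hy =>
      le_of_tendsto ((hT j t ht y hy).sub (hT j t ht x hx)).norm
        (((hB' (j + 1) t ht).filter_mono UF_le).mono fun N hN => hN.lip (hw _ _) hx hy)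
    refine (LipschitzOnWith.of_dist_le_mul (K := Real.toNNReal (C + |c (j + 1)|))
      fun p hp q hq => ?_).continuousOn
    have h1 : ‖D j p.1 p.2 - D j q.1 p.2‖ ≤ |p.1 - q.1| * C := by
      rcases le_total q.1 p.1 with e | e
      · rw [abs_of_nonneg (sub_nonneg.2 e)]; exact hC _ hq.1 _ hp.1 e _ hp.2
      · rw [norm_sub_rev, abs_sub_comm, abs_of_nonneg (sub_nonneg.2 e)]
        exact hC _ hp.1 _ hq.1 e _ hp.2
    have h2 := hx q.1 hq.1 q.2 hq.2 p.2 hp.2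
    have h3 : |p.1 - q.1| ≤ dist p q := le_max_left _ _
    have h4 : |p.2 - q.2| ≤ dist p q := le_max_right _ _
    rw [dist_eq_norm, Real.coe_toNNReal _ (by positivity)]
    refine (norm_sub_le_norm_sub_add_norm_sub _ (D j q.1 p.2) _).trans ?_
    nlinarith [le_abs_self (c (j + 1)), abs_nonneg (c (j + 1)), abs_nonneg (p.2 - q.2)]
  · refine hasDerivWithinAt_of_sq (C := c (j + 2)) fun y hy => ?_
    exact le_of_tendsto (((hT j t ht y hy).sub (hT j t ht x hx)).sub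
      ((hT (j + 1) t ht x hx).const_smul (y - x))).norm
      (((hB' (j + 2) t ht).filter_mono UF_le).mono fun N hN => hN.taylor (hw _ _) hx hy)
  · obtain ⟨C1, p1, -, h1⟩ := hI 0
    obtain ⟨C2, p2, -, h2⟩ := hI 1
    obtain ⟨C3, p3, -, h3⟩ := hI 2
    obtain ⟨L, hL⟩ := hF.contDiffOn.exists_lipschitzOnWith (by simp)
      (convex_closedBall (0 : ℝ × E × E × E) (1 + |c 2|)) (isCompact_closedBall _ _)
    set Φ : ℝ × E × E × E → E := fun z => F (z.1, z.2.1) z.2.2.1 z.2.2.2 with hΦ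
    have key : ∀ s ∈ Icc 0 τ, ∀ t ∈ Icc 0 τ, s ≤ t → ∀ r ∈ Icc s t,
        ‖D 0 t x - D 0 s x - (t - s) • Φ (x, D 0 r x, D 1 r x, D 2 r x)‖ ≤
          (t - s) * (L * ((t - s) * (C1 + C2 + C3))) := by
      intro s hs t ht hst r hr
      have hr' : r ∈ Icc 0 τ := ⟨hs.1.trans hr.1, hr.2.trans ht.2⟩
      refine le_of_tendsto_of_tendsto (((hT 0 t ht x hx).sub (hT 0 s hs x hx)).sub
        ((hdiff s hs t ht).smul ((hF.continuous.tendsto _).comp (tendsto_const_nhds.prodMk_nhds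
          ((hT 0 r hr' x hx).prodMk_nhds ((hT 1 r hr' x hx).prodMk_nhds (hT 2 r hr' x hx))))))).norm
        ((hdiff s hs t ht).mul (((hdiff s hs t ht).mul_const (C1 + C2 + C3)).const_mul (L : ℝ)))
        ((((hB 2).and (h1.and (h2.and (h3.and hE)))).filter_mono UF_le).mono ?_)
      rintro N ⟨b, a1, a2, a3, e⟩
      dsimp only [Function.comp_apply]
      set n := idx N s
      set m := idx N t
      set p := idx N r
      have hnm : n ≤ m := idx_mono N hst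
      have hnp : n ≤ p := idx_mono N hr.1
      have hpm : p ≤ m := idx_mono N hr.2
      have hh := hN_pos N
      have bb : ∀ i ≤ m, ∀ l ≤ 2, ‖iteratedDeriv l (w N i) x‖ ≤ 1 + |c 2| := fun i hi l hl =>
        (b i (le_trans (mul_le_mul_of_nonneg_right (by exact_mod_cast hi) hh.le)
          ((idx_le N ht.1).trans ht.2)) l hl x hx).trans (by linarith [le_abs_self (c 2)])
      have mem : ∀ i ≤ m, ∀ k ≤ m, (x, iteratedDeriv 0 (w N i) x, iteratedDeriv 1 (w N k) x,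
          iteratedDeriv 2 (w N k) x) ∈ Metric.closedBall (0 : ℝ × E × E × E) (1 + |c 2|) :=
        fun i hi k hk => by
          rw [mem_closedBall_zero_iff, norm_prod_le_iff, norm_prod_le_iff, norm_prod_le_iff]
          refine ⟨?_, bb i hi 0 (by omega), bb k hk 1 (by omega), bb k hk 2 le_rfl⟩
          rw [Real.norm_eq_abs, abs_of_nonneg hx.1]
          linarith [hx.2, abs_nonneg (c 2)]
      have d0 : (0 : ℝ) ≤ (m : ℝ) - n := sub_nonneg.2 (by exact_mod_cast hnm)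
      have k := tele (c := hN N * (L * (((m : ℝ) - n) * hN N * (C1 + C2 + C3))))
        (f := fun i => w N i x - ((i : ℝ) * hN N) • Φ (x, iteratedDeriv 0 (w N p) x,
          iteratedDeriv 1 (w N p) x, iteratedDeriv 2 (w N p) x)) hnm fun i hi hi' => by
        have e1 := e i (hstep N t ht i hi') x hx
        have l1 := hL.norm_sub_le (mem i hi'.le (i + 1) hi') (mem p hpm p hpm)
        have t1 := tele2 (f := fun i => iteratedDeriv 0 (w N i) x) (by positivity) hi hi'.le hnp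
          hpm fun i _ hi => a1 i (hstep N t ht i hi) x hx
        have t2 := tele2 (f := fun i => iteratedDeriv 1 (w N i) x) (by positivity)
          (Nat.le_succ_of_le hi) hi' hnp hpm fun i _ hi => a2 i (hstep N t ht i hi) x hx
        have t3 := tele2 (f := fun i => iteratedDeriv 2 (w N i) x) (by positivity)
          (Nat.le_succ_of_le hi) hi' hnp hpm fun i _ hi => a3 i (hstep N t ht i hi) x hx
        have q1 : 0 ≤ ((m : ℝ) - n) * hN N * C1 := by positivity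
        have q2 : 0 ≤ ((m : ℝ) - n) * hN N * C2 := by positivity
        have q3 : 0 ≤ ((m : ℝ) - n) * hN N * C3 := by positivity
        have l2 := l1.trans (mul_le_mul_of_nonneg_left (show _ ≤
            ((m : ℝ) - n) * hN N * (C1 + C2 + C3) by
          rw [norm_prod_le_iff, norm_prod_le_iff, norm_prod_le_iff]
          simp only [Prod.fst_sub, Prod.snd_sub, sub_self, norm_zero]
          exact ⟨by positivity, by linarith, by linarith, by linarith⟩) L.2)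
        have e2 : ∀ z : E, w N (i + 1) x - (((i + 1 : ℕ) : ℝ) * hN N) • z -
            (w N i x - ((i : ℝ) * hN N) • z) = (w N (i + 1) x - w N i x) - hN N • z := fun z => by
          push_cast; module
        rw [e2, e1, ← smul_sub, norm_smul, Real.norm_eq_abs, abs_of_pos hh]
        exact mul_le_mul_of_nonneg_left l2 hh.le
      refine le_trans (le_of_eq ?_) (k.trans (le_of_eq (by ring)))
      congr 1
      simp only [iteratedDeriv_zero]
      module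
    refine hasDerivWithinAt_of_sq (C := L * (C1 + C2 + C3)) fun t ht => ?_
    rcases le_total t0 t with e | e
    · exact (key t0 ht0 t ht e t0 ⟨le_rfl, e⟩).trans (le_of_eq (by ring))
    · have := key t ht t0 ht0 e t0 ⟨e, le_rfl⟩
      rw [← norm_neg] at this
      refine le_trans (le_of_eq ?_) (this.trans (le_of_eq (by ring)))
      congr 1
      simp only [hΦ]
      module
  · have := hT 0 0
    simp only [D, idx, zero_mul, Nat.floor_zero, h0, iteratedDeriv_zero]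
    exact (tendsto_const_nhds (f := (UF : Filter ℕ))).limUnder_eq
  · obtain ⟨C, -, e0, hC⟩ := hLt 0
    have := hC 0 ⟨le_rfl, ht.1.trans ht.2⟩ t ht ht.1 x hx
    rwa [hD0 x hx (ht.1.trans ht.2), sub_zero, e0 rfl] at this

end Crest.Agent.N207.S.Ex
end
end

-- ▼ part N207/S/Ex/Volt
section

/-!
Row 207, S0320, block EX: the averaging operators `T_k φ (x) = ∫₀¹ s^k φ(s x) ds`.
-/

set_option autoImplicit false
set_option linter.unusedSectionVars false

open Set Filter MeasureTheory intervalIntegral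
open scoped Topology ContDiff

noncomputable section
namespace Crest.Agent.N207.S.Ex

variable {E : Type*} [NormedAddCommGroup E] [NormedSpace ℝ E] [CompleteSpace E]

/-- `T_k φ (x) = ∫₀¹ s^k φ(s x) ds`. -/
def Tk (k : ℕ) (φ : ℝ → E) (x : ℝ) : E := ∫ s in (0 : ℝ)..1, s ^ k • φ (s * x)

omit [CompleteSpace E] in
lemma continuous_Tk (k : ℕ) {φ : ℝ → E} (hφ : Continuous φ) : Continuous (Tk k φ) := by
  unfold Tk
  refine intervalIntegral.continuous_parametric_intervalIntegral_of_continuous' ?_ 0 1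
  unfold Function.uncurry
  fun_prop

omit [CompleteSpace E] in
lemma Tk_sub (k : ℕ) {φ ψ : ℝ → E} (hφ : Continuous φ) (hψ : Continuous ψ) (x : ℝ) :
    Tk k φ x - Tk k ψ x = Tk k (fun r => φ r - ψ r) x := by
  unfold Tk
  rw [← intervalIntegral.integral_sub]
  · simp only [smul_sub]
  · exact Continuous.intervalIntegrable (by fun_prop) _ _
  · exact Continuous.intervalIntegrable (by fun_prop) _ _

lemma hasDerivAt_Tk (k : ℕ) {φ φ' : ℝ → E} (hφ : ∀ x, HasDerivAt φ (φ' x) x)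
    (hφ' : Continuous φ') (x : ℝ) : HasDerivAt (Tk k φ) (Tk (k + 1) φ' x) x := by
  have hc : Continuous φ := continuous_iff_continuousAt.2 fun x => (hφ x).continuousAt
  obtain ⟨C, hC⟩ := (isCompact_Icc (a := -(|x| + 1)) (b := |x| + 1)).exists_bound_of_continuousOn
    hφ'.continuousOn
  have key := intervalIntegral.hasDerivAt_integral_of_dominated_loc_of_deriv_le
    (𝕜 := ℝ) (μ := volume) (a := 0) (b := 1) (x₀ := x) (s := Metric.ball x 1)
    (F := fun y s => s ^ k • φ (s * y)) (F' := fun y s => s ^ (k + 1) • φ' (s * y))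
    (bound := fun _ => C) (Metric.ball_mem_nhds x one_pos)
    (Eventually.of_forall fun y => Continuous.aestronglyMeasurable (by fun_prop))
    (Continuous.intervalIntegrable (by fun_prop) _ _)
    (Continuous.aestronglyMeasurable (by fun_prop))
    (Eventually.of_forall fun s hs y hy => by
      rw [uIoc_of_le zero_le_one] at hs
      have h1 : |y - x| < 1 := by simpa [Real.dist_eq] using hy
      have h2 : |y| ≤ |x| + 1 := by
        have := abs_sub_abs_le_abs_sub y x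
        linarith
      have h3 : |s * y| ≤ |x| + 1 := by
        rw [abs_mul, abs_of_pos hs.1]
        nlinarith [abs_nonneg y, hs.2, hs.1]
      have h4 := hC (s * y) ⟨by linarith [neg_abs_le (s * y)], by linarith [le_abs_self (s * y)]⟩
      rw [norm_smul, Real.norm_eq_abs, abs_of_nonneg (pow_nonneg hs.1.le _)]
      have h5 : s ^ (k + 1) ≤ 1 := pow_le_one₀ hs.1.le hs.2
      nlinarith [norm_nonneg (φ' (s * y)), pow_nonneg hs.1.le (k + 1)])
    (by simp)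
    (Eventually.of_forall fun s _ y _ => by
      have h1 : HasDerivAt (fun y => φ (s * y)) (s • φ' (s * y)) y := by
        have := (hφ (s * y)).scomp y ((hasDerivAt_id y).const_mul s)
        rw [mul_one] at this
        exact this
      have h2 := h1.const_smul (s ^ k)
      refine h2.congr_deriv ?_
      rw [smul_smul, pow_succ])
  exact key.2

lemma contDiff_Tk (n : ℕ) : ∀ (k : ℕ) {φ : ℝ → E}, ContDiff ℝ n φ → ContDiff ℝ n (Tk k φ) := by
  induction n with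
  | zero =>
    intro k φ h
    simp only [Nat.cast_zero, contDiff_zero] at h ⊢
    exact continuous_Tk k h
  | succ n ih =>
    intro k φ h
    have h' : ContDiff ℝ ((n : ℕ∞ω) + 1) φ := by exact_mod_cast h
    rw [contDiff_succ_iff_deriv] at h'
    have hd : ∀ x, HasDerivAt (Tk k φ) (Tk (k + 1) (deriv φ) x) x :=
      hasDerivAt_Tk k (fun x => (h'.1 x).hasDerivAt) h'.2.2.continuous
    have : ContDiff ℝ ((n : ℕ∞ω) + 1) (Tk k φ) := by
      rw [contDiff_succ_iff_deriv]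
      refine ⟨fun x => (hd x).differentiableAt, by simp, ?_⟩
      have : deriv (Tk k φ) = Tk (k + 1) (deriv φ) := funext fun x => (hd x).deriv
      rw [this]
      exact ih (k + 1) h'.2.2
    exact_mod_cast this

lemma pow_smul_Tk (k : ℕ) (φ : ℝ → E) (x : ℝ) :
    x ^ (k + 1) • Tk k φ x = ∫ r in (0 : ℝ)..x, r ^ k • φ r := by
  have h := intervalIntegral.smul_integral_comp_mul_right (a := 0) (b := 1)
    (fun r : ℝ => r ^ k • φ r) x
  simp only [zero_mul, one_mul] at h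
  rw [← h, pow_succ', mul_smul, Tk, ← intervalIntegral.integral_smul]
  congr 1
  refine intervalIntegral.integral_congr fun s _ => ?_
  simp only [smul_smul, mul_pow]
  rw [mul_comm]

lemma Tk_zero (k : ℕ) (φ : ℝ → E) : ((k : ℝ) + 1) • Tk k φ 0 = φ 0 := by
  unfold Tk
  simp only [mul_zero]
  rw [intervalIntegral.integral_smul_const, integral_pow, smul_smul]
  have : ((k : ℝ) + 1) ≠ 0 := by positivity
  simp [this]

/-- `(x T_k φ)' = φ - k T_k φ`. -/
lemma hasDerivAt_mul_Tk (k : ℕ) {φ : ℝ → E} (hφ : Continuous φ) (x : ℝ) :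
    HasDerivAt (fun y => y • Tk k φ y) (φ x - (k : ℝ) • Tk k φ x) x := by
  by_cases hx : x = 0
  · subst hx
    have h0 : φ 0 - (k : ℝ) • Tk k φ 0 = Tk k φ 0 := by
      rw [← Tk_zero k φ, add_smul, one_smul]; abel
    rw [h0, hasDerivAt_iff_tendsto_slope_zero]
    have h1 : Tendsto (Tk k φ) (𝓝[≠] 0) (𝓝 (Tk k φ 0)) :=
      ((continuous_Tk k hφ).tendsto 0).mono_left nhdsWithin_le_nhds
    refine h1.congr' ?_
    filter_upwards [self_mem_nhdsWithin] with t ht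
    have ht' : t ≠ 0 := ht
    simp [smul_smul, ht']
  · have hI : HasDerivAt (fun y => ∫ r in (0 : ℝ)..y, r ^ k • φ r) (x ^ k • φ x) x :=
      intervalIntegral.integral_hasDerivAt_right (Continuous.intervalIntegrable (by fun_prop) _ _)
        (Continuous.stronglyMeasurableAtFilter (by fun_prop) _ _) (by fun_prop)
    have hp : HasDerivAt (fun y : ℝ => (y ^ k)⁻¹) (-((k : ℝ) * x ^ (k - 1)) / (x ^ k) ^ 2) x :=
      (hasDerivAt_pow k x).inv (pow_ne_zero k hx)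
    have h2 := hp.smul hI
    have h3 : (fun y => y • Tk k φ y) =ᶠ[𝓝 x]
        fun y => (y ^ k)⁻¹ • ∫ r in (0 : ℝ)..y, r ^ k • φ r := by
      filter_upwards [isOpen_ne.mem_nhds hx] with y hy
      rw [← pow_smul_Tk, smul_smul]
      congr 1
      have : y ^ k ≠ 0 := pow_ne_zero k hy
      field_simp
      ring
    refine (h2.congr_of_eventuallyEq h3).congr_deriv ?_
    rw [← pow_smul_Tk, smul_smul, smul_smul, inv_mul_cancel₀ (pow_ne_zero k hx), one_smul,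
      sub_eq_add_neg, ← neg_smul]
    congr 2
    rcases k with _ | k
    · simp
    · have : x ^ k ≠ 0 := pow_ne_zero k hx
      simp only [Nat.add_sub_cancel]
      field_simp
      ring

lemma contDiff_mul_Tk (n k : ℕ) {φ : ℝ → E} (hφ : ContDiff ℝ n φ) :
    ContDiff ℝ ((n : ℕ∞ω) + 1) (fun y => y • Tk k φ y) := by
  have hd := hasDerivAt_mul_Tk k hφ.continuous
  rw [contDiff_succ_iff_deriv]
  refine ⟨fun x => (hd x).differentiableAt, by simp, ?_⟩
  have : deriv (fun y => y • Tk k φ y) = fun x => φ x - (k : ℝ) • Tk k φ x :=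
    funext fun x => (hd x).deriv
  rw [this]
  exact hφ.sub ((contDiff_Tk n k hφ).const_smul _)

lemma contDiff_primitive (n : ℕ) {φ : ℝ → E} (hφ : ContDiff ℝ n φ) :
    ContDiff ℝ ((n : ℕ∞ω) + 1) (fun y => ∫ r in (0 : ℝ)..y, φ r) := by
  have hd : ∀ x, HasDerivAt (fun y => ∫ r in (0 : ℝ)..y, φ r) (φ x) x := fun x =>
    intervalIntegral.integral_hasDerivAt_right (hφ.continuous.intervalIntegrable _ _)
      (hφ.continuous.stronglyMeasurableAtFilter _ _) hφ.continuous.continuousAt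
  rw [contDiff_succ_iff_deriv]
  refine ⟨fun x => (hd x).differentiableAt, by simp, ?_⟩
  have : deriv (fun y => ∫ r in (0 : ℝ)..y, φ r) = φ := funext fun x => (hd x).deriv
  rw [this]
  exact hφ

omit [CompleteSpace E] in
lemma norm_primitive_le {φ : ℝ → E} {D L : ℝ} (hL : 0 < L)
    (h : ∀ r, ‖φ r‖ ≤ D * Real.exp (L * |r|)) (x : ℝ) :
    ‖∫ r in (0 : ℝ)..x, φ r‖ ≤ D / L * Real.exp (L * |x|) := by
  have hD : 0 ≤ D := by
    have := (norm_nonneg _).trans (h 0)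
    simpa using this
  have hI : ∀ y : ℝ, 0 ≤ y → ∫ r in (0 : ℝ)..y, D * Real.exp (L * r) ≤
      D / L * Real.exp (L * y) := by
    intro y _
    have : ∫ r in (0 : ℝ)..y, D * Real.exp (L * r) =
        D / L * Real.exp (L * y) - D / L * Real.exp (L * 0) := by
      refine intervalIntegral.integral_eq_sub_of_hasDerivAt (f := fun r => D / L * Real.exp (L * r))
        (fun r _ => ?_) (Continuous.intervalIntegrable (by fun_prop) _ _)
      have := (((hasDerivAt_id r).const_mul L).exp).const_mul (D / L)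
      refine HasDerivAt.congr_deriv this ?_
      simp only [id]; field_simp
    rw [this]
    have : 0 ≤ D / L * Real.exp (L * 0) := by positivity
    linarith
  rcases le_total 0 x with hx | hx
  · rw [abs_of_nonneg hx]
    refine le_trans (intervalIntegral.norm_integral_le_of_norm_le hx
      (Eventually.of_forall fun r hr => ?_) (Continuous.intervalIntegrable
        (by fun_prop : Continuous fun r => D * Real.exp (L * r)) _ _)) (hI x hx)
    have := h r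
    rwa [abs_of_pos hr.1] at this
  · rw [abs_of_nonpos hx]
    have h1 : ∫ r in (0 : ℝ)..x, φ r = -∫ r in (0 : ℝ)..(-x), φ (-r) := by
      rw [intervalIntegral.integral_comp_neg, neg_neg, neg_zero, intervalIntegral.integral_symm]
    rw [h1, norm_neg]
    refine le_trans (intervalIntegral.norm_integral_le_of_norm_le (by linarith)
      (Eventually.of_forall fun r hr => ?_) (Continuous.intervalIntegrable
        (by fun_prop : Continuous fun r => D * Real.exp (L * r)) _ _)) (hI (-x) (by linarith))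
    have := h (-r)
    rwa [abs_neg, abs_of_pos hr.1] at this

omit [CompleteSpace E] in
lemma norm_Tk_le (k : ℕ) {φ : ℝ → E} {D L : ℝ} (hL : 0 < L)
    (h : ∀ r, ‖φ r‖ ≤ D * Real.exp (L * |r|)) (x : ℝ) :
    ‖Tk k φ x‖ ≤ D * Real.exp (L * |x|) := by
  have hD : 0 ≤ D := by
    have := (norm_nonneg _).trans (h 0)
    simpa using this
  have := intervalIntegral.norm_integral_le_of_norm_le_const (a := 0) (b := 1)
    (f := fun s : ℝ => s ^ k • φ (s * x)) (C := D * Real.exp (L * |x|)) fun s hs => by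
      rw [uIoc_of_le zero_le_one] at hs
      rw [norm_smul, Real.norm_eq_abs, abs_of_nonneg (pow_nonneg hs.1.le _)]
      have h5 : s ^ k ≤ 1 := pow_le_one₀ hs.1.le hs.2
      have h6 : Real.exp (L * |s * x|) ≤ Real.exp (L * |x|) := by
        apply Real.exp_le_exp.2
        rw [abs_mul, abs_of_pos hs.1]
        have := abs_nonneg x
        have h7 : s * |x| ≤ |x| := by nlinarith [hs.2]
        exact mul_le_mul_of_nonneg_left h7 hL.le
      have h7 := (h (s * x)).trans (mul_le_mul_of_nonneg_left h6 hD)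
      nlinarith [norm_nonneg (φ (s * x)), pow_nonneg hs.1.le k]
  simpa [Tk] using this

lemma norm_mul_Tk_le (k : ℕ) {φ : ℝ → E} {D L : ℝ} (hL : 0 < L)
    (h : ∀ r, ‖φ r‖ ≤ D * Real.exp (L * |r|)) (x : ℝ) :
    ‖x • Tk k φ x‖ ≤ D / L * Real.exp (L * |x|) := by
  have h1 := intervalIntegral.smul_integral_comp_mul_right (a := 0) (b := 1)
    (fun r : ℝ => (r / x) ^ k • φ r) x
  simp only [zero_mul, one_mul] at h1
  have hD : 0 ≤ D := by
    have := (norm_nonneg _).trans (h 0)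
    simpa using this
  by_cases hx : x = 0
  · subst hx; simp; positivity
  have h2 : x • Tk k φ x = ∫ r in (0 : ℝ)..x, (if |r| ≤ |x| then (r / x) ^ k else 0) • φ r := by
    have h3 : ∫ r in (0 : ℝ)..x, (if |r| ≤ |x| then (r / x) ^ k else 0) • φ r =
        ∫ r in (0 : ℝ)..x, (r / x) ^ k • φ r := by
      refine intervalIntegral.integral_congr fun r hr => ?_
      have : |r| ≤ |x| := by simpa using Set.abs_sub_left_of_mem_uIcc hr
      simp only [this, if_true]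
    rw [h3, ← h1, Tk]
    congr 1
    refine intervalIntegral.integral_congr fun s _ => ?_
    simp only [mul_div_assoc, div_self hx, mul_one]
  rw [h2]
  refine norm_primitive_le hL (fun r => ?_) x
  rw [norm_smul]
  have h4 : ‖(if |r| ≤ |x| then (r / x) ^ k else 0 : ℝ)‖ ≤ 1 := by
    split_ifs with hr
    · rw [Real.norm_eq_abs, abs_pow, abs_div]
      exact pow_le_one₀ (by positivity) ((div_le_one (abs_pos.2 hx)).2 hr)
    · simp
  nlinarith [h r, norm_nonneg (φ r), norm_nonneg (if |r| ≤ |x| then (r / x) ^ k else 0 : ℝ)]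

end Crest.Agent.N207.S.Ex
end
end

-- ▼ part N207/S/Ex/Volt2
section

/-!
Row 207, S0320, block EX: the regular solution of the singular ODE at the left pole.
-/

set_option autoImplicit false
set_option linter.unusedSectionVars false

open Set Filter MeasureTheory intervalIntegral BoundedContinuousFunction
open scoped Topology ContDiff

noncomputable section
namespace Crest.Agent.N207.S.Ex

variable {E : Type*} [NormedAddCommGroup E] [NormedSpace ℝ E] [CompleteSpace E]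

/-- the Volterra map. -/
def volt (k : ℕ) (ρ : ℝ → ℝ) (A Q : ℝ → E →L[ℝ] E) (φ : ℝ → E) (x : ℝ) : E :=
  A x (∫ r in (0 : ℝ)..x, ρ r • Tk k φ r) + Q x (x • Tk k φ x)

lemma continuous_volt (k : ℕ) {ρ : ℝ → ℝ} {A Q : ℝ → E →L[ℝ] E} (hρ : Continuous ρ)
    (hA : Continuous A) (hQ : Continuous Q) {φ : ℝ → E} (hφ : Continuous φ) :
    Continuous (volt k ρ A Q φ) := by
  have h1 := continuous_Tk k hφ
  have h2 : Continuous fun x => ∫ r in (0 : ℝ)..x, ρ r • Tk k φ r :=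
    intervalIntegral.continuous_primitive
      (fun a b => Continuous.intervalIntegrable (by fun_prop) a b) 0
  unfold volt
  fun_prop

lemma volt_sub (k : ℕ) {ρ : ℝ → ℝ} (A Q : ℝ → E →L[ℝ] E) (hρ : Continuous ρ)
    {φ ψ : ℝ → E} (hφ : Continuous φ) (hψ : Continuous ψ) (x : ℝ) :
    volt k ρ A Q φ x - volt k ρ A Q ψ x = volt k ρ A Q (fun r => φ r - ψ r) x := by
  have h1 := continuous_Tk k hφ
  have h2 := continuous_Tk k hψ
  unfold volt
  simp only [← Tk_sub k hφ hψ, smul_sub]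
  rw [intervalIntegral.integral_sub (Continuous.intervalIntegrable (by fun_prop) _ _)
    (Continuous.intervalIntegrable (by fun_prop) _ _), map_sub, map_sub]
  abel

lemma norm_volt_le (k : ℕ) {ρ : ℝ → ℝ} {A Q : ℝ → E →L[ℝ] E} {M : ℝ} (hρ : ∀ x, ‖ρ x‖ ≤ M)
    (hA : ∀ x, ‖A x‖ ≤ M) (hQ : ∀ x, ‖Q x‖ ≤ M) {φ : ℝ → E} {D L : ℝ} (hL : 0 < L)
    (h : ∀ r, ‖φ r‖ ≤ D * Real.exp (L * |r|)) (x : ℝ) :
    ‖volt k ρ A Q φ x‖ ≤ (M * M + M) / L * D * Real.exp (L * |x|) := by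
  have hM : 0 ≤ M := (norm_nonneg _).trans (hρ 0)
  have h1 : ‖∫ r in (0 : ℝ)..x, ρ r • Tk k φ r‖ ≤ (M * D) / L * Real.exp (L * |x|) :=
    norm_primitive_le hL (fun r => by
      rw [norm_smul, mul_assoc]
      exact mul_le_mul (hρ r) (norm_Tk_le k hL h r) (norm_nonneg _) hM) x
  have h2 := norm_mul_Tk_le k hL h x
  have h3 := ((A x).le_opNorm _).trans (mul_le_mul (hA x) h1 (norm_nonneg _) hM)
  have h4 := ((Q x).le_opNorm _).trans (mul_le_mul (hQ x) h2 (norm_nonneg _) hM)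
  refine (norm_add_le _ _).trans ((add_le_add h3 h4).trans (le_of_eq ?_))
  field_simp

lemma volt_exists_cont (k : ℕ) {ρ : ℝ → ℝ} {A Q : ℝ → E →L[ℝ] E} {g : ℝ → E} {M : ℝ}
    (hρc : Continuous ρ) (hAc : Continuous A) (hQc : Continuous Q) (hgc : Continuous g)
    (hρ : ∀ x, ‖ρ x‖ ≤ M) (hA : ∀ x, ‖A x‖ ≤ M) (hQ : ∀ x, ‖Q x‖ ≤ M) (hg : ∀ x, ‖g x‖ ≤ M) :
    ∃ φ : ℝ → E, Continuous φ ∧ ∀ x, φ x = volt k ρ A Q φ x + g x := by
  have hM : 0 ≤ M := (norm_nonneg _).trans (hρ 0)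
  set L : ℝ := 2 * (M * M + M) + 1 with hLdef
  have hL : 0 < L := by positivity
  have hθ : (M * M + M) / L ≤ 1 / 2 := by
    rw [div_le_iff₀ hL]; linarith
  have hθ0 : 0 ≤ (M * M + M) / L := by positivity
  let up : (ℝ →ᵇ E) → ℝ → E := fun w r => Real.exp (L * |r|) • w r
  have upc : ∀ w, Continuous (up w) := fun w => by
    have := w.continuous
    simp only [up]; fun_prop
  have upb : ∀ w r, ‖up w r‖ ≤ ‖w‖ * Real.exp (L * |r|) := fun w r => by
    simp only [up]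
    rw [norm_smul, Real.norm_eq_abs, abs_of_pos (Real.exp_pos _), mul_comm]
    exact mul_le_mul_of_nonneg_right (w.norm_coe_le_norm r) (Real.exp_pos _).le
  have hdown : ∀ (z : E) (c x : ℝ), ‖z‖ ≤ c * Real.exp (L * |x|) →
      ‖Real.exp (-(L * |x|)) • z‖ ≤ c := fun z c x hz => by
    rw [norm_smul, Real.norm_eq_abs, abs_of_pos (Real.exp_pos _), Real.exp_neg,
      inv_mul_le_iff₀ (Real.exp_pos _), mul_comm]
    exact hz
  let Φ : (ℝ →ᵇ E) → (ℝ →ᵇ E) := fun w =>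
    BoundedContinuousFunction.ofNormedAddCommGroup
      (fun x => Real.exp (-(L * |x|)) • (volt k ρ A Q (up w) x + g x))
      (by have := continuous_volt k hρc hAc hQc (upc w); fun_prop)
      ((M * M + M) / L * ‖w‖ + M) (fun x => hdown _ _ x (by
        refine (norm_add_le _ _).trans ?_
        have h1 := norm_volt_le k hρ hA hQ hL (upb w) x
        have h2 : 1 ≤ Real.exp (L * |x|) := Real.one_le_exp (by positivity)
        have h3 := hg x
        nlinarith))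
  have hΦ : ∀ w x, Φ w x = Real.exp (-(L * |x|)) • (volt k ρ A Q (up w) x + g x) :=
    fun w x => rfl
  have hc : ContractingWith (1 / 2) Φ := by
    refine ⟨by norm_num, LipschitzWith.of_dist_le_mul fun w w' => ?_⟩
    rw [dist_eq_norm, dist_eq_norm]
    refine (BoundedContinuousFunction.norm_le (by positivity)).2 fun x => ?_
    rw [BoundedContinuousFunction.sub_apply, hΦ, hΦ, ← smul_sub, add_sub_add_right_eq_sub,
      volt_sub k A Q hρc (upc w) (upc w')]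
    refine hdown _ _ x ?_
    have h1 : ∀ r, ‖up w r - up w' r‖ ≤ ‖w - w'‖ * Real.exp (L * |r|) := fun r => by
      have := upb (w - w') r
      simpa only [up, BoundedContinuousFunction.sub_apply, smul_sub] using this
    refine (norm_volt_le k hρ hA hQ hL h1 x).trans ?_
    refine mul_le_mul_of_nonneg_right ?_ (Real.exp_pos _).le
    push_cast
    exact mul_le_mul_of_nonneg_right hθ (norm_nonneg _)
  refine ⟨up (hc.fixedPoint Φ), upc _, fun x => ?_⟩
  have h1 : Φ (hc.fixedPoint Φ) = hc.fixedPoint Φ := hc.fixedPoint_isFixedPt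
  have h2 := hΦ (hc.fixedPoint Φ) x
  rw [h1] at h2
  show Real.exp (L * |x|) • (hc.fixedPoint Φ) x = _
  rw [h2, smul_smul, ← Real.exp_add]
  simp

lemma volt_smooth (k : ℕ) {ρ : ℝ → ℝ} {A Q : ℝ → E →L[ℝ] E} {g φ : ℝ → E}
    (hρ : ContDiff ℝ ∞ ρ) (hA : ContDiff ℝ ∞ A) (hQ : ContDiff ℝ ∞ Q) (hg : ContDiff ℝ ∞ g)
    (hφ : Continuous φ) (h : ∀ x, φ x = volt k ρ A Q φ x + g x) : ContDiff ℝ ∞ φ := by
  rw [contDiff_infty]
  intro n
  induction n with
  | zero => simpa using hφ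
  | succ n ih =>
    have hle : ((n + 1 : ℕ) : ℕ∞ω) ≤ ∞ := by exact_mod_cast le_top
    have hle' : ((n : ℕ) : ℕ∞ω) ≤ ∞ := by exact_mod_cast le_top
    have h1 : ContDiff ℝ ((n + 1 : ℕ) : ℕ∞ω) fun x => ∫ r in (0 : ℝ)..x, ρ r • Tk k φ r := by
      have := contDiff_primitive n ((hρ.of_le hle').smul (contDiff_Tk n k ih))
      exact_mod_cast this
    have h2 : ContDiff ℝ ((n + 1 : ℕ) : ℕ∞ω) fun x => x • Tk k φ x := by
      have := contDiff_mul_Tk n k ih
      exact_mod_cast this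
    have h3 : φ = fun x => volt k ρ A Q φ x + g x := funext h
    rw [h3]
    unfold volt
    exact (((hA.of_le hle).clm_apply h1).add ((hQ.of_le hle).clm_apply h2)).add (hg.of_le hle)

/-- a bump equal to `1` on `[-1/8,5/8]`, supported in `(-1/4,3/4)`. -/
def chiL : ContDiffBump (1 / 4 : ℝ) := ⟨3 / 8, 1 / 2, by norm_num, by norm_num⟩

lemma chiL_one {x : ℝ} (hx : x ∈ Ioo (-1 / 8 : ℝ) (5 / 8)) : chiL x = 1 := by
  apply chiL.one_of_mem_closedBall
  rw [Metric.mem_closedBall, Real.dist_eq, abs_le]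
  simp only [chiL]
  constructor <;> linarith [hx.1, hx.2]

lemma bdd_chiL {F : Type*} [NormedAddCommGroup F] [NormedSpace ℝ F] {f : ℝ → F}
    (hf : Continuous fun x => chiL x • f x) : ∃ M, ∀ x, ‖chiL x • f x‖ ≤ M :=
  hf.bounded_above_of_compact_support (chiL.hasCompactSupport.smul_right (f' := f))

lemma contDiff_rho (k : ℕ) : ContDiff ℝ ∞ fun x : ℝ => chiL x • ((1 - x) ^ (k + 1))⁻¹ := by
  rw [contDiff_iff_contDiffAt]
  intro x
  by_cases hx : x < 1
  · exact chiL.contDiff.contDiffAt.smul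
      (ContDiffAt.inv (by fun_prop) (pow_ne_zero _ (by linarith)))
  · have : (fun x : ℝ => chiL x • ((1 - x) ^ (k + 1))⁻¹) =ᶠ[𝓝 x] fun _ => 0 := by
      filter_upwards [Ioi_mem_nhds (show (3 / 4 : ℝ) < x by linarith)] with y hy
      have : chiL y = 0 := by
        apply chiL.zero_of_le_dist
        rw [Real.dist_eq]
        simp only [chiL]
        have : (3 / 4 : ℝ) < y := hy
        rw [abs_of_pos (by linarith)]; linarith
      simp [this]
    exact contDiffAt_const.congr_of_eventuallyEq this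

/-- the regular solution at the left pole with prescribed value. -/
theorem left_sol (k : ℕ) {A Q : ℝ → E →L[ℝ] E} {g : ℝ → E} (hA : ContDiff ℝ ∞ A)
    (hQ : ContDiff ℝ ∞ Q) (hg : ContDiff ℝ ∞ g) (v0 : E) :
    ∃ v : ℝ → E, ContDiff ℝ ∞ v ∧ v 0 = v0 ∧ ∀ x ∈ Ioo (-1 / 8 : ℝ) (5 / 8),
      Lop ((k : ℝ) + 1) v x = A x (v x) + Q x (mu x • deriv v x) + g x := by
  have hχ : ContDiff ℝ ∞ chiL := chiL.contDiff
  have hρ := contDiff_rho k
  have hA' : ContDiff ℝ ∞ fun x : ℝ => chiL x • ((1 - x) ^ k • A x) := by fun_prop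
  have hQ' : ContDiff ℝ ∞ fun x : ℝ => chiL x • Q x := by fun_prop
  have hg' : ContDiff ℝ ∞ fun x : ℝ => chiL x • ((1 - x) ^ k • (A x v0 + g x)) := by fun_prop
  obtain ⟨M1, h1⟩ := bdd_chiL (f := fun x : ℝ => ((1 - x) ^ (k + 1))⁻¹) hρ.continuous
  obtain ⟨M2, h2⟩ := bdd_chiL (f := fun x : ℝ => (1 - x) ^ k • A x) hA'.continuous
  obtain ⟨M3, h3⟩ := bdd_chiL (f := Q) hQ'.continuous
  obtain ⟨M4, h4⟩ := bdd_chiL (f := fun x : ℝ => (1 - x) ^ k • (A x v0 + g x))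
    hg'.continuous
  obtain ⟨φ, hφc, hφ⟩ := volt_exists_cont k (M := max (max M1 M2) (max M3 M4)) hρ.continuous
    hA'.continuous hQ'.continuous hg'.continuous
    (fun x => (h1 x).trans ((le_max_left _ _).trans (le_max_left _ _)))
    (fun x => (h2 x).trans ((le_max_right _ _).trans (le_max_left _ _)))
    (fun x => (h3 x).trans ((le_max_left _ _).trans (le_max_right _ _)))
    (fun x => (h4 x).trans ((le_max_right _ _).trans (le_max_right _ _)))
  have hφs := volt_smooth k hρ hA' hQ' hg' hφc hφ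
  have hT : ContDiff ℝ ∞ (Tk k φ) := contDiff_infty.2 fun n =>
    contDiff_Tk n k (contDiff_infty.1 hφs n)
  set y : ℝ → E := fun r => (chiL r • ((1 - r) ^ (k + 1))⁻¹) • Tk k φ r with hy
  have hys : ContDiff ℝ ∞ y := hρ.smul hT
  set v : ℝ → E := fun x => v0 + ∫ r in (0 : ℝ)..x, y r with hv
  have hd : ∀ x, HasDerivAt v (y x) x := fun x =>
    (intervalIntegral.integral_hasDerivAt_right (hys.continuous.intervalIntegrable _ _)
      (hys.continuous.stronglyMeasurableAtFilter _ _) hys.continuous.continuousAt).const_add v0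
  have hdv : deriv v = y := funext fun x => (hd x).deriv
  have hvs : ContDiff ℝ ∞ v := by
    rw [contDiff_infty_iff_deriv, hdv]
    exact ⟨fun x => (hd x).differentiableAt, hys⟩
  refine ⟨v, hvs, by simp [hv], fun x hx => ?_⟩
  have hx1 : ∀ z ∈ Ioo (-1 / 8 : ℝ) (5 / 8), (1 - z) ≠ 0 := fun z hz => by linarith [hz.2]
  have hTy : ∀ z ∈ Ioo (-1 / 8 : ℝ) (5 / 8), Tk k φ z = (1 - z) ^ (k + 1) • y z := fun z hz => by
    simp only [hy, chiL_one hz, smul_smul, smul_eq_mul, one_mul]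
    rw [mul_inv_cancel₀ (pow_ne_zero _ (hx1 z hz)), one_smul]
  have hy' : HasDerivAt y (deriv y x) x := (hys.differentiable (by simp) x).hasDerivAt
  have e1 : HasDerivAt (fun z : ℝ => z * (1 - z) ^ (k + 1))
      ((1 - x) ^ (k + 1) - x * (((k : ℝ) + 1) * (1 - x) ^ k)) x := by
    have := (hasDerivAt_id x).mul (((hasDerivAt_id x).const_sub 1).pow (k + 1))
    refine HasDerivAt.congr_deriv this ?_
    simp only [id, Nat.add_sub_cancel, Pi.pow_apply]
    push_cast; ring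
  have e2 := e1.smul hy'
  have e3 : (fun z => z • Tk k φ z) =ᶠ[𝓝 x] fun z => (z * (1 - z) ^ (k + 1)) • y z := by
    filter_upwards [Ioo_mem_nhds hx.1 hx.2] with z hz
    rw [hTy z hz, smul_smul]
  have e4 := (hasDerivAt_mul_Tk k hφc x).unique (e2.congr_of_eventuallyEq e3)
  have e5 := hφ x
  simp only [volt, chiL_one hx, one_smul, ContinuousLinearMap.smul_apply] at e5
  rw [hTy x hx] at e4 e5
  have e6 : φ x = (1 - x) ^ k • Lop ((k : ℝ) + 1) v x := by
    rw [Lop, hdv, eq_add_of_sub_eq e4]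
    simp only [mu]
    module
  have e7 : (1 - x) ^ k • Lop ((k : ℝ) + 1) v x =
      (1 - x) ^ k • (A x (v x) + Q x (mu x • deriv v x) + g x) := by
    rw [← e6, e5, hdv]
    simp only [hv, map_add, map_smul, mu, hy]
    module
  exact smul_right_injective E (pow_ne_zero k (hx1 x hx)) e7

end Crest.Agent.N207.S.Ex
end
end

-- ▼ part N207/S/Ex/Res
section

/-!
Row 207, S0320, block EX: the resolvent problem on `[0,1]` (matching of the two pole solutions).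
-/

set_option autoImplicit false
set_option linter.unusedSectionVars false

open Set Filter
open scoped Topology ContDiff NNReal

noncomputable section
namespace Crest.Agent.N207.S.Ex

section
variable {E : Type*} [NormedAddCommGroup E] [NormedSpace ℝ E] [CompleteSpace E]

/-- the ODE at one point. -/
def Ode (c : ℝ) (A Q : ℝ → E →L[ℝ] E) (g v : ℝ → E) (x : ℝ) : Prop :=
  Lop c v x = A x (v x) + Q x (mu x • deriv v x) + g x

theorem right_sol (k : ℕ) {A Q : ℝ → E →L[ℝ] E} {g : ℝ → E} (hA : ContDiff ℝ ∞ A)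
    (hQ : ContDiff ℝ ∞ Q) (hg : ContDiff ℝ ∞ g) (v1 : E) :
    ∃ v : ℝ → E, ContDiff ℝ ∞ v ∧ v 1 = v1 ∧ ∀ x ∈ Ioo (3 / 8 : ℝ) (9 / 8),
      Ode ((k : ℝ) + 1) A Q g v x := by
  obtain ⟨w, hw, h0, he⟩ := left_sol k (A := fun x => A (1 - x)) (Q := fun x => -Q (1 - x))
    (g := fun x => g (1 - x)) (by fun_prop) (by fun_prop) (by fun_prop) v1
  refine ⟨fun x => w (1 - x), by fun_prop, by simpa using h0, fun x hx => ?_⟩
  have h1 : deriv (fun x => w (1 - x)) = fun x => -deriv w (1 - x) :=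
    funext fun x => deriv_comp_const_sub _ _ _
  have h2 : deriv (fun x => -deriv w (1 - x)) x = deriv (deriv w) (1 - x) := by
    rw [deriv.fun_neg, deriv_comp_const_sub, neg_neg]
  have h3 := he (1 - x) ⟨by linarith [hx.2], by linarith [hx.1]⟩
  have h4 : mu (1 - x) = mu x := by unfold mu; ring
  simp only [Lop, h4, sub_sub_cancel, ContinuousLinearMap.neg_apply] at h3
  simp only [Ode, Lop, h1, h2, smul_neg, map_neg]
  rw [← h3]
  module

lemma ode_unique {c : ℝ} {A Q : ℝ → E →L[ℝ] E} {g v w : ℝ → E} (hA : Continuous A)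
    (hQ : Continuous Q) (hv : ContDiff ℝ ∞ v) (hw : ContDiff ℝ ∞ w)
    (ev : ∀ x ∈ Ioo (3 / 8 : ℝ) (5 / 8), Ode c A Q g v x)
    (ew : ∀ x ∈ Ioo (3 / 8 : ℝ) (5 / 8), Ode c A Q g w x) (h0 : v (1 / 2) = w (1 / 2))
    (h1 : deriv v (1 / 2) = deriv w (1 / 2)) : EqOn v w (Ioo (3 / 8 : ℝ) (5 / 8)) := by
  let Λ : ℝ → (E × E) →L[ℝ] (E × E) := fun t => (ContinuousLinearMap.snd ℝ E E).prod
    ((mu t)⁻¹ • ((A t).comp (ContinuousLinearMap.fst ℝ E E) +
      mu t • (Q t).comp (ContinuousLinearMap.snd ℝ E E) -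
      (c * (1 - 2 * t)) • ContinuousLinearMap.snd ℝ E E))
  have hmu : ∀ t ∈ Icc (3 / 8 : ℝ) (5 / 8), mu t ≠ 0 := fun t ht => by
    unfold mu
    exact mul_ne_zero (by linarith [ht.1]) (by linarith [ht.2])
  have hΛ : ContinuousOn Λ (Icc (3 / 8 : ℝ) (5 / 8)) := by
    have hm := contDiff_mu.continuous
    have h2 : ContinuousOn (fun t => (mu t)⁻¹ • ((A t).comp (ContinuousLinearMap.fst ℝ E E) +
      mu t • (Q t).comp (ContinuousLinearMap.snd ℝ E E) -
      (c * (1 - 2 * t)) • ContinuousLinearMap.snd ℝ E E)) (Icc (3 / 8 : ℝ) (5 / 8)) :=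
      (hm.continuousOn.inv₀ hmu).smul (Continuous.continuousOn (by fun_prop))
    exact (ContinuousLinearMap.prodₗᵢ ℝ).continuous.comp_continuousOn
      (continuousOn_const.prodMk h2)
  obtain ⟨K, hK⟩ := isCompact_Icc.exists_bound_of_continuousOn hΛ
  have key : ∀ u : ℝ → E, ContDiff ℝ ∞ u → (∀ x ∈ Ioo (3 / 8 : ℝ) (5 / 8), Ode c A Q g u x) →
      ∀ t ∈ Ioo (3 / 8 : ℝ) (5 / 8), HasDerivAt (fun t => (u t, deriv u t))
        (Λ t (u t, deriv u t) + (0, (mu t)⁻¹ • g t)) t ∧ (u t, deriv u t) ∈ (univ : Set (E × E)) := by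
    intro u hu eu t ht
    refine ⟨?_, trivial⟩
    have h2 := ((hu.differentiable (by simp) t).hasDerivAt).prodMk
      (((contDiff_deriv hu).differentiable (by simp) t).hasDerivAt)
    refine h2.congr_deriv ?_
    have h3 := eu t ht
    have h4 := hmu t (Ioo_subset_Icc_self ht)
    simp only [Ode, Lop, map_smul] at h3
    ext
    · simp [Λ]
    · simp only [Λ, ContinuousLinearMap.prod_apply, Prod.mk_add_mk, ContinuousLinearMap.smul_apply,
        ContinuousLinearMap.sub_apply, ContinuousLinearMap.add_apply,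
        ContinuousLinearMap.comp_apply, ContinuousLinearMap.coe_fst', ContinuousLinearMap.coe_snd']
      rw [← smul_add]
      have h5 : mu t • deriv (deriv u) t = A t (u t) + mu t • Q t (deriv u t) -
          (c * (1 - 2 * t)) • deriv u t + g t := by
        rw [eq_sub_of_add_eq h3]; abel
      rw [← h5, smul_smul, inv_mul_cancel₀ h4, one_smul]
  have := ODE_solution_unique_of_mem_Ioo (K := Real.toNNReal K)
    (v := fun t Y => Λ t Y + (0, (mu t)⁻¹ • g t)) (s := fun _ => univ) (t₀ := 1 / 2)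
    (fun t ht => by
      refine LipschitzWith.lipschitzOnWith (LipschitzWith.of_dist_le_mul fun Y Y' => ?_)
      rw [dist_add_right, dist_eq_norm, dist_eq_norm, ← map_sub]
      refine ((Λ t).le_opNorm _).trans (mul_le_mul_of_nonneg_right ?_ (norm_nonneg _))
      exact (hK t (Ioo_subset_Icc_self ht)).trans (Real.le_coe_toNNReal K))
    (by norm_num) (key v hv ev) (key w hw ew) (by simp only [h0, h1])
  exact fun x hx => congrArg Prod.fst (this hx)

lemma Ode.congr {c : ℝ} {A Q : ℝ → E →L[ℝ] E} {g v w : ℝ → E} {x : ℝ} (h : Ode c A Q g v x)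
    (e : w =ᶠ[𝓝 x] v) : Ode c A Q g w x := by
  have e1 := e.deriv
  have e2 := e1.deriv
  simp only [Ode, Lop] at h ⊢
  rw [e.eq_of_nhds, e1.eq_of_nhds, e2.eq_of_nhds]
  exact h

lemma glue {c : ℝ} {A Q : ℝ → E →L[ℝ] E} {g v w : ℝ → E} (hA : Continuous A)
    (hQ : Continuous Q) (hv : ContDiff ℝ ∞ v) (hw : ContDiff ℝ ∞ w)
    (ev : ∀ x ∈ Ioo (-1 / 8 : ℝ) (5 / 8), Ode c A Q g v x)
    (ew : ∀ x ∈ Ioo (3 / 8 : ℝ) (9 / 8), Ode c A Q g w x) (h0 : v (1 / 2) = w (1 / 2))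
    (h1 : deriv v (1 / 2) = deriv w (1 / 2)) :
    ∃ u : ℝ → E, ContDiff ℝ ∞ u ∧ u 0 = v 0 ∧ u 1 = w 1 ∧
      ∀ x ∈ Icc (0 : ℝ) 1, Ode c A Q g u x := by
  have e := ode_unique hA hQ hv hw (fun x hx => ev x ⟨by linarith [hx.1], hx.2⟩)
    (fun x hx => ew x ⟨hx.1, by linarith [hx.2]⟩) h0 h1
  let u : ℝ → E := fun x => if x ≤ 1 / 2 then v x else w x
  have e1 : ∀ x < (5 / 8 : ℝ), u =ᶠ[𝓝 x] v := fun x hx => by
    filter_upwards [Iio_mem_nhds hx] with y hy
    simp only [u]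
    split_ifs with h
    · rfl
    · exact (e ⟨by linarith, hy⟩).symm
  have e2 : ∀ x > (3 / 8 : ℝ), u =ᶠ[𝓝 x] w := fun x hx => by
    filter_upwards [Ioi_mem_nhds hx] with y hy
    simp only [u]
    split_ifs with h
    · exact e ⟨hy, by linarith⟩
    · rfl
  refine ⟨u, contDiff_iff_contDiffAt.2 fun x => ?_, (e1 0 (by norm_num)).eq_of_nhds,
    (e2 1 (by norm_num)).eq_of_nhds, fun x hx => ?_⟩
  · rcases lt_or_ge x (5 / 8) with h | h
    · exact hv.contDiffAt.congr_of_eventuallyEq (e1 x h)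
    · exact hw.contDiffAt.congr_of_eventuallyEq (e2 x (by linarith))
  · rcases lt_or_ge x (5 / 8) with h | h
    · exact (ev x ⟨by linarith [hx.1], h⟩).congr (e1 x h)
    · exact (ew x ⟨by linarith, by linarith [hx.2]⟩).congr (e2 x (by linarith))

lemma deriv_add_apply {p : ℝ → E} {M : ℝ → E →L[ℝ] E} (hp : ContDiff ℝ ∞ p) (hM : ContDiff ℝ ∞ M)
    (e : E) : deriv (fun x => p x + M x e) = fun x => deriv p x + deriv M x e := by
  funext x
  have := ((hp.differentiable (by simp) x).hasDerivAt).fun_add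
    (((hM.differentiable (by simp) x).hasDerivAt).clm_apply (hasDerivAt_const x e))
  simpa using this.deriv

lemma ode_add_apply {c : ℝ} {A Q : ℝ → E →L[ℝ] E} {g p : ℝ → E} {M : ℝ → E →L[ℝ] E} {x : ℝ}
    (hp : ContDiff ℝ ∞ p) (hM : ContDiff ℝ ∞ M) (ep : Ode c A Q g p x)
    (eM : Ode c (fun x => ContinuousLinearMap.compL ℝ E E E (A x))
      (fun x => ContinuousLinearMap.compL ℝ E E E (Q x)) (fun _ => 0) M x) (e : E) :
    Ode c A Q g (fun x => p x + M x e) x := by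
  have h1 := congrArg (fun T : E →L[ℝ] E => T e) eM
  simp only [Lop, ContinuousLinearMap.add_apply, ContinuousLinearMap.smul_apply,
    ContinuousLinearMap.compL_apply, ContinuousLinearMap.comp_apply, add_zero, map_smul] at h1
  simp only [Ode, Lop, map_smul] at ep ⊢
  rw [deriv_add_apply hp hM, deriv_add_apply (contDiff_deriv hp) (contDiff_deriv hM)]
  simp only [map_add, smul_add]
  have : ∀ a b a' b' : E, a + a' + (b + b') = (a + b) + (a' + b') := fun _ _ _ _ => by abel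
  rw [this, ep, h1]
  abel

lemma ode_zero {c : ℝ} {A Q : ℝ → E →L[ℝ] E} {x : ℝ} :
    Ode c A Q (fun _ => 0) (fun _ => 0) x := by simp [Ode, Lop]

theorem bvp_exists [FiniteDimensional ℝ E] (k : ℕ) {A Q : ℝ → E →L[ℝ] E} {g : ℝ → E}
    (hA : ContDiff ℝ ∞ A) (hQ : ContDiff ℝ ∞ Q) (hg : ContDiff ℝ ∞ g)
    (huniq : ∀ v : ℝ → E, ContDiff ℝ ∞ v →
      (∀ x ∈ Icc (0 : ℝ) 1, Ode ((k : ℝ) + 1) A Q (fun _ => 0) v x) → v 0 = 0 ∧ v 1 = 0) :
    ∃ v : ℝ → E, ContDiff ℝ ∞ v ∧ ∀ x ∈ Icc (0 : ℝ) 1, Ode ((k : ℝ) + 1) A Q g v x := by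
  have hA' : ContDiff ℝ ∞ fun x => ContinuousLinearMap.compL ℝ E E E (A x) := by fun_prop
  have hQ' : ContDiff ℝ ∞ fun x => ContinuousLinearMap.compL ℝ E E E (Q x) := by fun_prop
  obtain ⟨ML, hML, hML0, eML⟩ := left_sol k (g := fun _ => 0) hA' hQ' contDiff_const
    (ContinuousLinearMap.id ℝ E)
  obtain ⟨MR, hMR, hMR0, eMR⟩ := right_sol k (g := fun _ => 0) hA' hQ' contDiff_const
    (ContinuousLinearMap.id ℝ E)
  obtain ⟨pL, hpL, -, epL⟩ := left_sol k hA hQ hg 0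
  obtain ⟨pR, hpR, -, epR⟩ := right_sol k hA hQ hg 0
  let Λ : (E × E) →L[ℝ] (E × E) :=
    ((ML (1 / 2)).coprod (-MR (1 / 2))).prod ((deriv ML (1 / 2)).coprod (-deriv MR (1 / 2)))
  have hΛ : ∀ y : E × E, Λ y = (ML (1 / 2) y.1 - MR (1 / 2) y.2,
      deriv ML (1 / 2) y.1 - deriv MR (1 / 2) y.2) := fun y => by
    simp [Λ, sub_eq_add_neg]
  have hinj : Function.Injective (Λ : (E × E) →ₗ[ℝ] (E × E)) := by
    rw [injective_iff_map_eq_zero]
    intro y hy
    have hy' : Λ y = 0 := hy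
    rw [hΛ, Prod.mk_eq_zero, sub_eq_zero, sub_eq_zero] at hy'
    have z : ContDiff ℝ ∞ fun _ : ℝ => (0 : E) := contDiff_const
    obtain ⟨u, hu, u0, u1, eu⟩ := glue hA.continuous hQ.continuous
      (v := fun x => 0 + ML x y.1) (w := fun x => 0 + MR x y.2) (by fun_prop) (by fun_prop)
      (fun x hx => ode_add_apply z hML ode_zero (eML x hx) y.1)
      (fun x hx => ode_add_apply z hMR ode_zero (eMR x hx) y.2) (by rw [hy'.1])
      (by rw [deriv_add_apply z hML, deriv_add_apply z hMR]; simp only [hy'.2])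
    obtain ⟨a, b⟩ := huniq u hu eu
    rw [u0, hML0] at a
    rw [u1, hMR0] at b
    ext
    · simpa using a
    · simpa using b
  obtain ⟨y, hy⟩ := LinearMap.injective_iff_surjective.1 hinj
    (pR (1 / 2) - pL (1 / 2), deriv pR (1 / 2) - deriv pL (1 / 2))
  have hy' : Λ y = _ := hy
  rw [hΛ, Prod.mk.injEq] at hy'
  obtain ⟨u, hu, -, -, eu⟩ := glue hA.continuous hQ.continuous
    (v := fun x => pL x + ML x y.1) (w := fun x => pR x + MR x y.2) (by fun_prop) (by fun_prop)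
    (fun x hx => ode_add_apply hpL hML (epL x hx) (eML x hx) y.1)
    (fun x hx => ode_add_apply hpR hMR (epR x hx) (eMR x hx) y.2)
    (by rw [eq_add_of_sub_eq hy'.1]; abel)
    (by rw [deriv_add_apply hpL hML, deriv_add_apply hpR hMR]
        simp only [eq_add_of_sub_eq hy'.2]; abel)
  exact ⟨u, hu, eu⟩

end

variable {E : Type*} [NormedAddCommGroup E] [InnerProductSpace ℝ E] [FiniteDimensional ℝ E]

/-- **the resolvent**. -/
theorem resolvent {b : ℕ} (hb : 1 ≤ b) {f : ℝ → E} {α : ℝ → ℝ} {β : ℝ → E →L[ℝ] E}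
    {h α0 Bb : ℝ} (hf : ContDiff ℝ ∞ f) (hαs : ContDiff ℝ ∞ α) (hβs : ContDiff ℝ ∞ β)
    (hpos : ∀ x, 0 < α x) (hh : 0 < h) (hα0 : 0 < α0) (hα : ∀ x ∈ Icc (0 : ℝ) 1, α0 ≤ α x)
    (hβ : ∀ x ∈ Icc (0 : ℝ) 1, ‖β x‖ ≤ Bb) (hsmall : h * (Bb ^ 2 / (16 * α0)) < 1) :
    ∃ v : ℝ → E, ContDiff ℝ ∞ v ∧ ∀ x ∈ Icc (0 : ℝ) 1,
      v x - h • (α x • Lop b v x + β x (mu x • deriv v x)) = f x := by
  have : CompleteSpace E := FiniteDimensional.complete ℝ E
  obtain ⟨k, rfl⟩ : ∃ k, b = k + 1 := ⟨b - 1, by omega⟩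
  have hi : ContDiff ℝ ∞ fun x => (α x)⁻¹ := hαs.inv fun x => (hpos x).ne'
  have key : ∀ (g v : ℝ → E) (x : ℝ), Ode ((k : ℝ) + 1)
      (fun x => (h⁻¹ * (α x)⁻¹) • ContinuousLinearMap.id ℝ E) (fun x => -((α x)⁻¹ • β x))
      (fun x => -((h⁻¹ * (α x)⁻¹) • g x)) v x →
      v x - h • (α x • Lop ((k + 1 : ℕ) : ℝ) v x + β x (mu x • deriv v x)) = g x := by
    intro g v x e
    simp only [Ode, ContinuousLinearMap.smul_apply, ContinuousLinearMap.id_apply,
      ContinuousLinearMap.neg_apply] at e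
    push_cast
    rw [e]
    have h1 := (hpos x).ne'
    have h2 := hh.ne'
    match_scalars <;> field_simp <;> ring
  obtain ⟨v, hv, ev⟩ := bvp_exists k
    (A := fun x => (h⁻¹ * (α x)⁻¹) • ContinuousLinearMap.id ℝ E) (Q := fun x => -((α x)⁻¹ • β x))
    (g := fun x => -((h⁻¹ * (α x)⁻¹) • f x)) (by fun_prop) (by fun_prop) (by fun_prop)
    (fun v hv ev => by
      have h1 := stat_max (γ := fun _ => 0) (f := fun _ => 0) (Γ := 0) (F := 0)
        (c := ((k + 1 : ℕ) : ℝ)) hv (by positivity) hh.le hα0 hα hβ (by simp) (by simp)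
        (fun x hx => by
          have := key (fun _ => 0) v x (by simpa using ev x hx)
          simpa using this)
      have h2 : ∀ x ∈ Icc (0 : ℝ) 1, v x = 0 := fun x hx => by
        have := h1 x hx
        rw [add_zero] at this
        have h3 : ‖v x‖ ≤ 0 := by nlinarith [norm_nonneg (v x)]
        exact norm_le_zero_iff.1 h3
      exact ⟨h2 0 (by simp), h2 1 (by simp)⟩)
  exact ⟨v, hv, fun x hx => key f v x (ev x hx)⟩

end Crest.Agent.N207.S.Ex
end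
end

-- ▼ part N207/S/Ex/Disc
section

/-!
Row 207, S0320, block EX: differentiating the resolvent equation.
-/

set_option autoImplicit false
set_option linter.unusedSectionVars false

open Set Filter
open scoped Topology ContDiff

noncomputable section
namespace Crest.Agent.N207.S.Ex

section
variable {E : Type*} [NormedAddCommGroup E] [NormedSpace ℝ E]

lemma deriv_eqOn_Icc {f g : ℝ → E} (hf : ContDiff ℝ ∞ f) (hg : ContDiff ℝ ∞ g)
    (h : ∀ x ∈ Icc (0 : ℝ) 1, f x = g x) : ∀ x ∈ Icc (0 : ℝ) 1, deriv f x = deriv g x := by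
  intro x hx
  have hu := uniqueDiffOn_Icc (zero_lt_one (α := ℝ)) x hx
  exact hu.eq_deriv _ (hda hf x).hasDerivWithinAt
    ((hda hg x).hasDerivWithinAt.congr h (h x hx))

/-- first order coefficient at level `j`. -/
def bet (α : ℝ → ℝ) (β : ℝ → E →L[ℝ] E) : ℕ → ℝ → E →L[ℝ] E
  | 0 => β
  | j + 1 => fun x => bet α β j x + deriv α x • ContinuousLinearMap.id ℝ E

/-- zero order coefficient at level `j`. -/
def gam (c : ℝ) (α : ℝ → ℝ) (β : ℝ → E →L[ℝ] E) : ℕ → ℝ → E →L[ℝ] E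
  | 0 => fun _ => 0
  | j + 1 => fun x => gam c α β j x +
      ((-2 * (c + j)) • α x + (c + j) • ((1 - 2 * x) • deriv α x)) • ContinuousLinearMap.id ℝ E +
      (mu x • deriv (bet α β j) x + (1 - 2 * x) • bet α β j x)

/-- source at level `j`. -/
def rho (c : ℝ) (α : ℝ → ℝ) (β : ℝ → E →L[ℝ] E) (r v : ℝ → E) : ℕ → ℝ → E
  | 0 => r
  | j + 1 => fun x => deriv (rho c α β r v j) x + deriv (gam c α β j) x (iteratedDeriv j v x)

variable {c h : ℝ} {α : ℝ → ℝ} {β : ℝ → E →L[ℝ] E} {r u v : ℝ → E}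

lemma contDiff_bet (hα : ContDiff ℝ ∞ α) (hβ : ContDiff ℝ ∞ β) (j : ℕ) :
    ContDiff ℝ ∞ (bet α β j) := by
  induction j with
  | zero => exact hβ
  | succ j ih =>
    have := contDiff_deriv hα
    unfold bet; fun_prop

lemma contDiff_gam (hα : ContDiff ℝ ∞ α) (hβ : ContDiff ℝ ∞ β) (j : ℕ) :
    ContDiff ℝ ∞ (gam c α β j) := by
  induction j with
  | zero => exact contDiff_const
  | succ j ih =>
    have := contDiff_deriv hα
    have h1 := contDiff_bet hα hβ j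
    have h2 := contDiff_deriv h1
    have h3 := contDiff_mu
    unfold gam; fun_prop

lemma contDiff_rho' (hα : ContDiff ℝ ∞ α) (hβ : ContDiff ℝ ∞ β) (hr : ContDiff ℝ ∞ r)
    (hv : ContDiff ℝ ∞ v) (j : ℕ) : ContDiff ℝ ∞ (rho c α β r v j) := by
  induction j with
  | zero => exact hr
  | succ j ih =>
    have h1 := contDiff_deriv ih
    have h2 := contDiff_deriv (contDiff_gam (c := c) hα hβ j)
    have h3 := contDiff_iter j hv
    unfold rho; fun_prop

lemma lev_step {γ : ℝ → E →L[ℝ] E} {f : ℝ → E} (hα : ContDiff ℝ ∞ α) (hβ : ContDiff ℝ ∞ β)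
    (hγ : ContDiff ℝ ∞ γ) (hf : ContDiff ℝ ∞ f) (hv : ContDiff ℝ ∞ v)
    (heq : ∀ x ∈ Icc (0 : ℝ) 1,
      v x - h • (α x • Lop c v x + β x (mu x • deriv v x) + γ x (v x)) = f x) :
    ∀ x ∈ Icc (0 : ℝ) 1, deriv v x - h • (α x • Lop (c + 1) (deriv v) x +
      (β x + deriv α x • ContinuousLinearMap.id ℝ E) (mu x • deriv (deriv v) x) +
      (γ x + ((-2 * c) • α x + c • ((1 - 2 * x) • deriv α x)) • ContinuousLinearMap.id ℝ E +
        (mu x • deriv β x + (1 - 2 * x) • β x)) (deriv v x)) =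
      deriv f x + h • deriv γ x (v x) := by
  intro x hx
  have s1 := contDiff_deriv hv
  have s2 := contDiff_deriv s1
  have hm := contDiff_mu
  have e := deriv_eqOn_Icc (by unfold Lop; fun_prop) hf heq x hx
  have hl : HasDerivAt (fun x : ℝ => c * (1 - 2 * x)) (c * (-(2 * 1))) x :=
    (((hasDerivAt_id x).const_mul 2).const_sub 1).const_mul c
  have d := (hda hv x).fun_sub ((((((hda hα x).fun_smul
    (((hasDerivAt_mu x).fun_smul (hda s2 x)).fun_add (hl.fun_smul (hda s1 x)))).fun_add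
    ((hda hβ x).clm_apply ((hasDerivAt_mu x).fun_smul (hda s1 x)))).fun_add
    ((hda hγ x).clm_apply (hda hv x)))).fun_const_smul h)
  have e2 := d.deriv.symm.trans e
  rw [← e2]
  simp only [Lop, ContinuousLinearMap.add_apply, ContinuousLinearMap.smul_apply,
    ContinuousLinearMap.id_apply, map_add, map_smul, smul_eq_mul]
  module

lemma lev_eq (hα : ContDiff ℝ ∞ α) (hβ : ContDiff ℝ ∞ β) (hr : ContDiff ℝ ∞ r)
    (hu : ContDiff ℝ ∞ u) (hv : ContDiff ℝ ∞ v)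
    (heq : ∀ x ∈ Icc (0 : ℝ) 1,
      v x - h • (α x • Lop c v x + β x (mu x • deriv v x)) = u x + h • r x) (j : ℕ) :
    ∀ x ∈ Icc (0 : ℝ) 1, iteratedDeriv j v x - h • (α x • Lop (c + j) (iteratedDeriv j v) x +
      bet α β j x (mu x • deriv (iteratedDeriv j v) x) + gam c α β j x (iteratedDeriv j v x)) =
      iteratedDeriv j u x + h • rho c α β r v j x := by
  induction j with
  | zero => simpa [bet, gam, rho] using heq
  | succ j ih =>
    intro x hx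
    have s1 := contDiff_iter j hu
    have s2 := contDiff_rho' (c := c) hα hβ hr hv j
    have := lev_step hα (contDiff_bet hα hβ j) (contDiff_gam hα hβ j) (by fun_prop)
      (contDiff_iter j hv) ih x hx
    rw [((hda s1 x).fun_add ((hda s2 x).fun_const_smul h)).deriv] at this
    rw [iteratedDeriv_succ, iteratedDeriv_succ, Nat.cast_succ, ← add_assoc]
    simp only [bet, gam, rho]
    rw [this, smul_add, add_assoc]

lemma bd_bet (hα : ContDiff ℝ ∞ α) (hβ : ContDiff ℝ ∞ β) (j i : ℕ) {N : ℝ} (b1 : Bd i N β)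
    (a1 : Bd (i + min j 1) N α) : Bd i ((1 + j) * N) (bet α β j) := by
  induction j with
  | zero => simpa [bet] using b1
  | succ j ih =>
    have h1 : Bd (i + 1) N α := a1.mono (by omega) le_rfl
    have s1 := contDiff_deriv hα
    have h2 := h1.deriv.clm ((ContinuousLinearMap.id ℝ ℝ).smulRight (ContinuousLinearMap.id ℝ E)) s1
    have h3 := (ih (a1.mono (by omega) le_rfl)).add h2 (contDiff_bet hα hβ j) (by fun_prop)
    refine Bd.mono h3 le_rfl ?_
    have h4 : ‖(ContinuousLinearMap.id ℝ ℝ).smulRight (ContinuousLinearMap.id ℝ E)‖ ≤ 1 := by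
      rw [ContinuousLinearMap.norm_smulRight_apply]
      exact mul_le_one₀ ContinuousLinearMap.norm_id_le (norm_nonneg _)
        ContinuousLinearMap.norm_id_le
    push_cast
    nlinarith [b1.nonneg]

lemma bd_gam (c : ℝ) (j i : ℕ) : ∃ C, 0 ≤ C ∧ ∀ {α : ℝ → ℝ} {β : ℝ → E →L[ℝ] E} {N : ℝ},
    ContDiff ℝ ∞ α → ContDiff ℝ ∞ β → Bd (i + min j 1) N β → Bd (i + min j 2) N α →
    Bd i (C * N) (gam c α β j) := by
  induction j with
  | zero =>
    refine ⟨0, le_rfl, fun _ _ _ _ => ?_⟩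
    simpa [gam] using bd_const i (0 : E →L[ℝ] E)
  | succ j ih =>
    obtain ⟨C, hC0, hC⟩ := ih
    obtain ⟨P, hP⟩ := exists_bd i contDiff_mu
    have sq : ContDiff ℝ ∞ fun x : ℝ => 1 - 2 * x := by fun_prop
    obtain ⟨Q, hQ⟩ := exists_bd i sq
    have := hP.nonneg
    have := hQ.nonneg
    refine ⟨C + (|-2 * (c + j)| + |c + j| * (2 ^ i * Q)) + (2 ^ i * (P * (1 + j)) +
      2 ^ i * (Q * (1 + j))), by positivity, fun {α β N} hα hβ b1 a1 => ?_⟩
    have s1 := contDiff_deriv hα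
    have s2 := contDiff_bet hα hβ j
    have s3 := contDiff_deriv s2
    have s4 := contDiff_mu
    have s5 := contDiff_gam (c := c) hα hβ j
    have h1 : Bd (i + 1) N α := a1.mono (by omega) le_rfl
    have h2 := ((h1.mono (Nat.le_succ i) le_rfl).csmul (-2 * (c + j)) hα).add
      ((hQ.smul h1.deriv sq s1).csmul (c + j) (by fun_prop)) (by fun_prop) (by fun_prop)
    have h3 := h2.clm ((ContinuousLinearMap.id ℝ ℝ).smulRight (ContinuousLinearMap.id ℝ E))
      (by fun_prop)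
    have h4 : ‖(ContinuousLinearMap.id ℝ ℝ).smulRight (ContinuousLinearMap.id ℝ E)‖ ≤ 1 := by
      rw [ContinuousLinearMap.norm_smulRight_apply]
      exact mul_le_one₀ ContinuousLinearMap.norm_id_le (norm_nonneg _)
        ContinuousLinearMap.norm_id_le
    have h3' := h3.mono le_rfl (mul_le_of_le_one_left h2.nonneg h4)
    have h5 := bd_bet hα hβ j (i + 1) (b1.mono (by omega) le_rfl) (a1.mono (by omega) le_rfl)
    have h6 := (hP.smul h5.deriv s4 s3).add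
      (hQ.smul (h5.mono (Nat.le_succ i) le_rfl) sq s2) (by fun_prop) (by fun_prop)
    have h7 := ((hC hα hβ (b1.mono (by omega) le_rfl) (a1.mono (by omega) le_rfl)).add h3' s5
      (by fun_prop)).add h6 (by fun_prop) (by fun_prop)
    exact Bd.mono h7 le_rfl (le_of_eq (by ring))

lemma bd_rho (c K : ℝ) (hK : 0 ≤ K) (j : ℕ) : ∀ i : ℕ, ∃ C, 0 ≤ C ∧ ∀ {α : ℝ → ℝ}
    {β : ℝ → E →L[ℝ] E} {r v : ℝ → E} {N : ℝ},
    ContDiff ℝ ∞ α → ContDiff ℝ ∞ β → ContDiff ℝ ∞ r → ContDiff ℝ ∞ v →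
    Bd (i + j) N β → Bd (i + j) N α → Bd (i + j) N r →
    (∀ l < i + j, ∀ x ∈ Icc (0 : ℝ) 1, ‖iteratedDeriv l v x‖ ≤ K) →
    Bd i (C * N) (rho c α β r v j) := by
  induction j with
  | zero => exact fun i => ⟨1, zero_le_one, fun _ _ _ _ _ _ h _ => by simpa [rho] using h⟩
  | succ j ih =>
    intro i
    obtain ⟨C, hC0, hC⟩ := ih (i + 1)
    obtain ⟨D, hD0, hD⟩ := bd_gam (E := E) c j (i + 1)
    refine ⟨C + 2 ^ i * (D * K), by positivity, fun {α β r v N} hα hβ hr hv b1 a1 r1 v1 => ?_⟩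
    have e : i + 1 + j = i + (j + 1) := by omega
    have s1 := contDiff_deriv (contDiff_rho' (c := c) hα hβ hr hv j)
    have s2 := contDiff_deriv (contDiff_gam (c := c) hα hβ j)
    have s3 := contDiff_iter j hv
    have h1 := hC hα hβ hr hv (e ▸ b1) (e ▸ a1) (e ▸ r1) (e ▸ v1)
    have h2 := hD hα hβ (b1.mono (by omega) le_rfl) (a1.mono (by omega) le_rfl)
    have h3 : Bd (i + j) K v := fun l hl => v1 l (by omega)
    have h4 := h1.deriv.add (h2.deriv.app h3.iter s2 s3) s1 (by fun_prop)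
    exact Bd.mono h4 le_rfl (le_of_eq (by ring))

end

variable {E : Type} [NormedAddCommGroup E] [InnerProductSpace ℝ E] [FiniteDimensional ℝ E]

/-- one step of the linearised implicit Euler scheme. -/
def Step (S : Core E) (h : ℝ) (u v : ℝ → E) : Prop :=
  ContDiff ℝ ∞ v ∧ ∀ x ∈ Icc (0 : ℝ) 1,
    v x - h • (S.a (x, u x) • Lop S.b v x + S.B (x, u x) (mu x • deriv v x)) =
      u x + h • S.G (x, u x)

lemma Core.lower (S : Core E) (K : ℝ) :
    ∃ α0, 0 < α0 ∧ ∀ x ∈ Icc (0 : ℝ) 1, ∀ e : E, ‖e‖ ≤ K → α0 ≤ S.a (x, e) := by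
  obtain ⟨C, h0, hC⟩ := bd_comp0 (Φ := fun y => (S.a y)⁻¹)
    (S.ha.continuous.inv₀ fun y => (S.apos y).ne') K
  refine ⟨(C + 1)⁻¹, by positivity, fun x hx e he => ?_⟩
  have h1 := hC x hx e he
  rw [Real.norm_eq_abs, abs_of_pos (inv_pos.2 (S.apos _))] at h1
  exact inv_le_of_inv_le₀ (S.apos _) (by linarith)

lemma step_exists (S : Core E) (K : ℝ) : ∃ h0, 0 < h0 ∧ ∀ h, 0 < h → h ≤ h0 → ∀ u : ℝ → E,
    ContDiff ℝ ∞ u → Bd 0 K u → ∃ v, Step S h u v := by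
  obtain ⟨α0, h0, hα⟩ := S.lower K
  obtain ⟨B, -, hB⟩ := bd_comp0 S.hB.continuous K
  have hp : 0 ≤ B ^ 2 / (16 * α0) := by positivity
  refine ⟨(B ^ 2 / (16 * α0) + 1)⁻¹, by positivity, fun h hh hh0 u hu hK => ?_⟩
  have := S.ha
  have := S.hB
  have := S.hG
  refine resolvent S.hb (f := fun x => u x + h • S.G (x, u x)) (α := fun x => S.a (x, u x))
    (β := fun x => S.B (x, u x)) (by fun_prop) (by fun_prop) (by fun_prop)
    (fun x => S.apos _) hh h0 (fun x hx => hα x hx _ (hK.zero hx))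
    (fun x hx => hB x hx _ (hK.zero hx)) ?_
  have h1 : h * (B ^ 2 / (16 * α0) + 1) ≤ 1 := by
    rwa [← le_div_iff₀ (by positivity), one_div]
  nlinarith

lemma level (S : Core E) (K K' : ℝ) (hK' : 0 ≤ K') (j : ℕ) : ∃ θ C, 0 ≤ θ ∧ 0 ≤ C ∧
    ∀ h, 0 < h → h * θ ≤ 1 / 2 → ∀ (u v : ℝ → E) (N L : ℝ), ContDiff ℝ ∞ u → Step S h u v →
    Bd 2 K u → Bd j N (fun x => S.a (x, u x)) → Bd j N (fun x => S.B (x, u x)) →
    Bd j N (fun x => S.G (x, u x)) → (∀ l < j, ∀ x ∈ Icc (0 : ℝ) 1, ‖iteratedDeriv l v x‖ ≤ K') →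
    (∀ x ∈ Icc (0 : ℝ) 1, ‖iteratedDeriv j u x‖ ≤ L) →
    ∀ x ∈ Icc (0 : ℝ) 1, ‖iteratedDeriv j v x‖ ≤ (1 + 2 * h * θ) * (L + h * (C * N)) := by
  obtain ⟨α0, h0, hα⟩ := S.lower K
  obtain ⟨M1, m1, hM1⟩ := bd_comp 2 S.ha K
  obtain ⟨M2, m2, hM2⟩ := bd_comp 2 S.hB K
  obtain ⟨D, hD0, hD⟩ := bd_gam (E := E) S.b j 0
  obtain ⟨C, hC0, hC⟩ := bd_rho (E := E) S.b K' hK' j 0
  refine ⟨((1 + j) * (M1 + M2)) ^ 2 / (16 * α0) + D * (M1 + M2), C, by positivity, hC0,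
    fun h hh hθ u v N L hu hv hK a1 b1 r1 v1 u1 x hx => ?_⟩
  have := S.ha
  have := S.hB
  have := S.hG
  have sa : ContDiff ℝ ∞ fun x => S.a (x, u x) := by fun_prop
  have sb : ContDiff ℝ ∞ fun x => S.B (x, u x) := by fun_prop
  have sr : ContDiff ℝ ∞ fun x => S.G (x, u x) := by fun_prop
  have a2 := (hM1 u hu hK).mono le_rfl (le_add_of_nonneg_right m2)
  have b2 := (hM2 u hu hK).mono le_rfl (le_add_of_nonneg_left m1)
  have k1 := bd_bet sa sb j 0 (b2.mono (by omega) le_rfl) (a2.mono (by omega) le_rfl)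
  have k2 := hD sa sb (b2.mono (by omega) le_rfl) (a2.mono (by omega) le_rfl)
  have k3 := hC sa sb sr hv.1 (by rwa [zero_add]) (by rwa [zero_add]) (by rwa [zero_add])
    (by rwa [zero_add])
  have k4 := stat_max (F := L + h * (C * N)) (contDiff_iter j hv.1)
    (c := (S.b : ℝ) + j) (by positivity) hh.le h0 (fun x hx => hα x hx _ (hK.zero hx))
    (fun x hx => k1.zero hx) (fun x hx => k2.zero hx) (fun x hx => by
      refine norm_add_le_of_le (u1 x hx) ?_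
      rw [norm_smul, Real.norm_eq_abs, abs_of_pos hh]
      exact mul_le_mul_of_nonneg_left (k3.zero hx) hh.le)
    (lev_eq sa sb sr hu hv.1 hv.2 j) x hx
  set θ := ((1 + j) * (M1 + M2)) ^ 2 / (16 * α0) + D * (M1 + M2) with hθdef
  have hθ0 : 0 ≤ h * θ := by positivity
  have k5 := mul_le_mul_of_nonneg_left k4 (show 0 ≤ 1 + 2 * h * θ by nlinarith)
  refine le_trans ?_ k5
  rw [← mul_assoc]
  refine le_mul_of_one_le_left (norm_nonneg _) ?_
  nlinarith

end Crest.Agent.N207.S.Ex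
end
private theorem rz_9c4ee17ee1 : type_of% @_root_.Crest.Agent.N207.S.Ex.bet.eq_def := @_root_.Crest.Agent.N207.S.Ex.bet.eq_def -- L28
private theorem rz_6022254327 : type_of% @_root_.Crest.Agent.N207.S.Ex.bet.eq_1 := @_root_.Crest.Agent.N207.S.Ex.bet.eq_1 -- L28
private theorem rz_a4cb8861ea : type_of% @_root_.Crest.Agent.N207.S.Ex.gam.eq_def := @_root_.Crest.Agent.N207.S.Ex.gam.eq_def -- L33
private theorem rz_98ea46c630 : type_of% @_root_.Crest.Agent.N207.S.Ex.gam.eq_1 := @_root_.Crest.Agent.N207.S.Ex.gam.eq_1 -- L33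
private theorem rz_118e004865 : type_of% @_root_.Crest.Agent.N207.S.Ex.rho.eq_def := @_root_.Crest.Agent.N207.S.Ex.rho.eq_def -- L40
private theorem rz_b63dee252a : type_of% @_root_.Crest.Agent.N207.S.Ex.rho.eq_1 := @_root_.Crest.Agent.N207.S.Ex.rho.eq_1 -- L40
end

-- ▼ part N207/S/Ex/Rothe
section

/-!
Row 207, S0320, block EX: the Rothe sequence and its uniform bounds.
-/

set_option autoImplicit false
set_option linter.unusedSectionVars false

open Set Filter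
open scoped Topology ContDiff

noncomputable section
namespace Crest.Agent.N207.S.Ex

variable {E : Type} [NormedAddCommGroup E] [InnerProductSpace ℝ E] [FiniteDimensional ℝ E]

lemma low_aux (S : Core E) (K : ℝ) (j : ℕ) (hj : j ≤ 3) : ∃ h0 A, 0 < h0 ∧ h0 ≤ 1 ∧ 0 ≤ A ∧
    ∀ h, 0 < h → h ≤ h0 → ∀ (u v : ℝ → E) (L : ℝ), ContDiff ℝ ∞ u → Step S h u v →
      Bd 2 L u → L ≤ K → ∀ l < j, ∀ x ∈ Icc (0 : ℝ) 1, ‖iteratedDeriv l v x‖ ≤ L + h * A := by
  induction j with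
  | zero => exact ⟨1, 0, one_pos, le_rfl, le_rfl, fun _ _ _ _ _ _ _ _ _ _ l hl => by omega⟩
  | succ j ih =>
    obtain ⟨h0, A, p0, p1, pA, hA⟩ := ih (by omega)
    obtain ⟨M1, m1, hM1⟩ := bd_comp 2 S.ha K
    obtain ⟨M2, m2, hM2⟩ := bd_comp 2 S.hB K
    obtain ⟨M3, m3, hM3⟩ := bd_comp 2 S.hG K
    obtain ⟨θ, C, pθ, pC, hl⟩ := level S K (|K| + A) (by positivity) j
    set c := C * (M1 + M2 + M3) with hc
    have pc : 0 ≤ c := by positivity
    refine ⟨min h0 (1 / (2 * θ + 1)), A + (c + 2 * θ * (|K| + c)), by positivity,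
      (min_le_left _ _).trans p1, by positivity, fun h hh hh0 u v L hu hv hL hLK l hl' x hx => ?_⟩
    have q0 : h ≤ h0 := hh0.trans (min_le_left _ _)
    have q1 : h * (2 * θ + 1) ≤ 1 := by
      rw [← le_div_iff₀ (by positivity)]; exact hh0.trans (min_le_right _ _)
    have hK := hL.mono le_rfl hLK
    have pp : 0 ≤ h * (c + 2 * θ * (|K| + c)) := by positivity
    rcases lt_or_eq_of_le (Nat.lt_succ_iff.1 hl') with e | e
    · exact (hA h hh q0 u v L hu hv hL hLK l e x hx).trans (by nlinarith)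
    · subst e
      have k := hl h hh (by nlinarith) u v (M1 + M2 + M3) L hu hv hK
        ((hM1 u hu hK).mono (by omega) (by linarith)) ((hM2 u hu hK).mono (by omega) (by linarith))
        ((hM3 u hu hK).mono (by omega) (by linarith))
        (fun i hi y hy => (hA h hh q0 u v L hu hv hL hLK i hi y hy).trans
          (by nlinarith [le_abs_self K])) (hL l (by omega)) x hx
      refine k.trans ?_
      rw [← hc]
      have r1 : L + h * c ≤ |K| + c := by nlinarith [le_abs_self K]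
      have r2 : 2 * h * θ * (L + h * c) ≤ 2 * h * θ * (|K| + c) :=
        mul_le_mul_of_nonneg_left r1 (by positivity)
      nlinarith [mul_nonneg hh.le pA]

lemma low (S : Core E) (K : ℝ) : ∃ h0 A, 0 < h0 ∧ 0 ≤ A ∧
    ∀ h, 0 < h → h ≤ h0 → ∀ (u v : ℝ → E) (L : ℝ), ContDiff ℝ ∞ u → Step S h u v →
      Bd 2 L u → L ≤ K → Bd 2 (L + h * A) v := by
  obtain ⟨h0, A, p0, -, pA, hA⟩ := low_aux S K 3 le_rfl
  exact ⟨h0, A, p0, pA, fun h hh hh0 u v L hu hv hL hLK l hl =>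
    hA h hh hh0 u v L hu hv hL hLK l (by omega)⟩

lemma high (S : Core E) (K K' : ℝ) (hK' : 0 ≤ K') (j : ℕ) : ∃ h0 Θ, 0 < h0 ∧ 0 ≤ Θ ∧
    ∀ h, 0 < h → h ≤ h0 → ∀ (u v : ℝ → E) (L : ℝ), ContDiff ℝ ∞ u → Step S h u v →
      Bd 2 K u → Bd j K' u → Bd j K' v → K' ≤ L → Bd (j + 1) L u →
      Bd (j + 1) ((1 + L) * (1 + h * Θ) - 1) v := by
  obtain ⟨M1, m1, hM1⟩ := bd_comp_tame j S.ha K'
  obtain ⟨M2, m2, hM2⟩ := bd_comp_tame j S.hB K'
  obtain ⟨M3, m3, hM3⟩ := bd_comp_tame j S.hG K'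
  obtain ⟨θ, C, pθ, pC, hl⟩ := level S K K' hK' (j + 1)
  set c := C * (M1 + M2 + M3) with hc
  have pc : 0 ≤ c := by positivity
  refine ⟨1 / (2 * θ + 1), 2 * θ + c + c, by positivity, by positivity,
    fun h hh hh0 u v L hu hv hK hu' hv' hL hu1 => ?_⟩
  have q1 : h * (2 * θ + 1) ≤ 1 := by rwa [← le_div_iff₀ (by positivity)]
  have pL : 0 ≤ L := hu1.nonneg
  have pp : 0 ≤ (1 + L) * (h * (2 * θ + c + c)) := by positivity
  refine bd_top (hv'.mono le_rfl (by nlinarith)) fun x hx => ?_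
  have k := hl h hh (by nlinarith) u v ((M1 + M2 + M3) * (1 + L)) L hu hv hK
    ((hM1 u L hu hu' hu1).mono le_rfl (by nlinarith))
    ((hM2 u L hu hu' hu1).mono le_rfl (by nlinarith))
    ((hM3 u L hu hu' hu1).mono le_rfl (by nlinarith))
    (fun i hi => hv' i (by omega)) (hu1 (j + 1) le_rfl) x hx
  refine k.trans ?_
  rw [← mul_assoc C, ← hc]
  have r1 : 2 * h * θ * (h * (c * (1 + L))) ≤ 1 * (h * (c * (1 + L))) :=
    mul_le_mul_of_nonneg_right (by nlinarith) (by positivity)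
  nlinarith [mul_nonneg hh.le pθ]

open Classical in
/-- the Rothe sequence. -/
def roth (S : Core E) (h : ℝ) (u0 : ℝ → E) : ℕ → ℝ → E
  | 0 => u0
  | n + 1 => if H : ∃ v, Step S h (roth S h u0 n) v then H.choose else roth S h u0 n

lemma roth_step {S : Core E} {h : ℝ} {u0 : ℝ → E} {n : ℕ} (H : ∃ v, Step S h (roth S h u0 n) v) :
    Step S h (roth S h u0 n) (roth S h u0 (n + 1)) := by
  simp only [roth, dif_pos H]
  exact H.choose_spec

lemma roth_smooth {S : Core E} {h : ℝ} {u0 : ℝ → E} (hu : ContDiff ℝ ∞ u0) (n : ℕ) :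
    ContDiff ℝ ∞ (roth S h u0 n) := by
  induction n with
  | zero => exact hu
  | succ n ih =>
    by_cases H : ∃ v, Step S h (roth S h u0 n) v
    · exact (roth_step H).1
    · simp only [roth, dif_neg H]; exact ih

lemma roth_low (S : Core E) (K : ℝ) : ∃ δ h0 : ℝ, 0 < δ ∧ 0 < h0 ∧ ∀ u0 : ℝ → E, ContDiff ℝ ∞ u0 →
    Bd 2 K u0 → ∀ h : ℝ, 0 < h → h ≤ h0 → ∀ n : ℕ, n * h ≤ δ →
      Bd 2 (K + 1) (roth S h u0 n) ∧ Step S h (roth S h u0 n) (roth S h u0 (n + 1)) := by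
  obtain ⟨h0, A, p0, pA, hA⟩ := low S (K + 1)
  obtain ⟨h1, p1, h1'⟩ := step_exists S (K + 1)
  refine ⟨1 / (A + 1), min h0 h1, by positivity, by positivity, fun u0 hu hK h hh hh0 => ?_⟩
  have key : ∀ n : ℕ, n * h ≤ 1 / (A + 1) → n * h * A ≤ 1 := fun n hn => by
    rw [le_div_iff₀ (by positivity)] at hn
    nlinarith [mul_nonneg (Nat.cast_nonneg (α := ℝ) n) hh.le]
  have st : ∀ n : ℕ, Bd 2 (K + 1) (roth S h u0 n) →
      Step S h (roth S h u0 n) (roth S h u0 (n + 1)) := fun n hn =>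
    roth_step (h1' h hh (hh0.trans (min_le_right _ _)) _ (roth_smooth hu n)
      (hn.mono (by omega) le_rfl))
  have main : ∀ n : ℕ, n * h ≤ 1 / (A + 1) → Bd 2 (K + n * h * A) (roth S h u0 n) := by
    intro n
    induction n with
    | zero => intro _; simpa [roth] using hK
    | succ n ih =>
      intro hn
      have hn' : n * h ≤ 1 / (A + 1) := by push_cast at hn; nlinarith
      have b1 := ih hn'
      have b2 : K + n * h * A ≤ K + 1 := by linarith [key n hn']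
      refine (hA h hh (hh0.trans (min_le_left _ _)) _ _ _ (roth_smooth hu n)
        (st n (b1.mono le_rfl b2)) b1 b2).mono le_rfl (le_of_eq ?_)
      push_cast; ring
  intro n hn
  have b := (main n hn).mono le_rfl (show K + n * h * A ≤ K + 1 by linarith [key n hn])
  exact ⟨b, st n b⟩

lemma roth_high (S : Core E) {K δ h1 : ℝ} (p1 : 0 < h1)
    (hlow : ∀ u0 : ℝ → E, ContDiff ℝ ∞ u0 → Bd 2 K u0 → ∀ h : ℝ, 0 < h → h ≤ h1 → ∀ n : ℕ, n * h ≤ δ →
      Bd 2 (K + 1) (roth S h u0 n) ∧ Step S h (roth S h u0 n) (roth S h u0 (n + 1)))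
    (j : ℕ) (L : ℝ) : ∃ C h0 : ℝ, 0 < h0 ∧ h0 ≤ h1 ∧ ∀ u0 : ℝ → E, ContDiff ℝ ∞ u0 → Bd 2 K u0 →
      Bd j L u0 → ∀ h : ℝ, 0 < h → h ≤ h0 → ∀ n : ℕ, n * h ≤ δ → Bd j C (roth S h u0 n) := by
  induction j with
  | zero => exact ⟨K + 1, h1, p1, le_rfl, fun u0 hu hK _ h hh hh0 n hn =>
      (hlow u0 hu hK h hh hh0 n hn).1.mono (by omega) le_rfl⟩
  | succ j ih =>
    obtain ⟨C, h0, p0, p01, hC⟩ := ih
    obtain ⟨h2, Θ, p2, pΘ, hΘ⟩ := high S (K + 1) |C| (abs_nonneg _) j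
    refine ⟨(1 + (|C| + |L|)) * Real.exp (δ * Θ), min h0 h2, by positivity,
      (min_le_left _ _).trans p01, fun u0 hu hK hL h hh hh0 => ?_⟩
    have q0 := hh0.trans (min_le_left _ _)
    have lo : ∀ n : ℕ, n * h ≤ δ → Bd j |C| (roth S h u0 n) := fun n hn =>
      (hC u0 hu hK (hL.mono (by omega) le_rfl) h hh q0 n hn).mono le_rfl (le_abs_self C)
    have main : ∀ n : ℕ, n * h ≤ δ →
        Bd (j + 1) ((1 + (|C| + |L|)) * Real.exp (n * h * Θ) - 1) (roth S h u0 n) := by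
      intro n
      induction n with
      | zero =>
        intro _
        refine Bd.mono (K := L) (by simpa [roth] using hL) le_rfl ?_
        simp only [Nat.cast_zero, zero_mul, Real.exp_zero]
        linarith [abs_nonneg C, le_abs_self L]
      | succ n ih =>
        intro hn
        have hn' : n * h ≤ δ := by push_cast at hn; nlinarith
        have e1 : 1 ≤ Real.exp (n * h * Θ) := Real.one_le_exp (by positivity)
        have l1 := hlow u0 hu hK h hh (q0.trans p01) n hn'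
        refine (hΘ h hh (hh0.trans (min_le_right _ _)) _ _ _ (roth_smooth hu n) l1.2 l1.1
          (lo n hn') (lo (n + 1) hn) (by nlinarith [abs_nonneg C, abs_nonneg L]) (ih hn')).mono
          le_rfl ?_
        have e2 : 1 + h * Θ ≤ Real.exp (h * Θ) := by linarith [Real.add_one_le_exp (h * Θ)]
        have e3 : ((n + 1 : ℕ) : ℝ) * h * Θ = n * h * Θ + h * Θ := by push_cast; ring
        rw [e3, Real.exp_add, add_sub_cancel, ← mul_assoc]
        have := mul_le_mul_of_nonneg_left e2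
          (show 0 ≤ (1 + (|C| + |L|)) * Real.exp (n * h * Θ) by positivity)
        linarith
    intro n hn
    refine (main n hn).mono le_rfl ?_
    have e1 : Real.exp (n * h * Θ) ≤ Real.exp (δ * Θ) :=
      Real.exp_le_exp.2 (mul_le_mul_of_nonneg_right hn pΘ)
    have := mul_le_mul_of_nonneg_left e1 (show 0 ≤ 1 + (|C| + |L|) by positivity)
    linarith

/-- increments of one step. -/
lemma step_incr (S : Core E) (j : ℕ) (C : ℝ) : ∃ C', 0 ≤ C' ∧ ∀ (h : ℝ) (u v : ℝ → E), 0 < h →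
    ContDiff ℝ ∞ u → Step S h u v → Bd j C u → Bd (j + 2) C v →
      ∀ x ∈ Icc (0 : ℝ) 1, ‖iteratedDeriv j v x - iteratedDeriv j u x‖ ≤ h * C' := by
  obtain ⟨M1, m1, hM1⟩ := bd_comp j S.ha C
  obtain ⟨M2, m2, hM2⟩ := bd_comp j S.hB C
  obtain ⟨M3, m3, hM3⟩ := bd_comp j S.hG C
  obtain ⟨P, hP⟩ := exists_bd j contDiff_mu
  have sq : ContDiff ℝ ∞ fun x : ℝ => (S.b : ℝ) * (1 - 2 * x) := by fun_prop
  obtain ⟨Q, hQ⟩ := exists_bd j sq
  refine ⟨|2 ^ j * (M1 * (2 ^ j * (P * C) + 2 ^ j * (Q * C))) + 2 ^ j * (M2 * (2 ^ j * (P * C))) +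
    M3|, abs_nonneg _, fun h u v hh hu hv bu bv x hx => ?_⟩
  have := S.ha
  have := S.hB
  have := S.hG
  have sm := contDiff_mu
  have s1 := contDiff_deriv hv.1
  have s2 := contDiff_deriv s1
  have sv := hv.1
  have b1 : Bd j C (deriv v) := (bv.mono (by omega) le_rfl : Bd (j + 1) C v).deriv
  have b2 : Bd j C (deriv (deriv v)) := bv.deriv.deriv
  have k := ((((hM1 u hu bu).smul ((hP.smul b2 sm s2).add (hQ.smul b1 sq s1) (by fun_prop)
    (by fun_prop)) (by fun_prop) (by fun_prop)).add ((hM2 u hu bu).app (hP.smul b1 sm s1)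
    (by fun_prop) (by fun_prop)) (by fun_prop) (by fun_prop)).add (hM3 u hu bu) (by fun_prop)
    (by fun_prop)).csmul h (by fun_prop)
  have e : ∀ i : ℕ, ∀ x ∈ Icc (0 : ℝ) 1, iteratedDeriv i v x - iteratedDeriv i u x =
      iteratedDeriv i (fun x => h • (S.a (x, u x) • (mu x • deriv (deriv v) x +
        ((S.b : ℝ) * (1 - 2 * x)) • deriv v x) + S.B (x, u x) (mu x • deriv v x) +
        S.G (x, u x))) x := by
    intro i
    induction i with
    | zero =>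
      intro x hx
      have := hv.2 x hx
      simp only [Lop] at this
      simp only [iteratedDeriv_zero]
      rw [eq_add_of_sub_eq this]
      module
    | succ i ih =>
      intro x hx
      have t1 := contDiff_iter i sv
      have t2 := contDiff_iter i hu
      have := deriv_eqOn_Icc (by fun_prop) (contDiff_iter i (by fun_prop)) ih x hx
      rw [((hda t1 x).fun_sub (hda t2 x)).deriv] at this
      simpa only [iteratedDeriv_succ] using this
  rw [e j x hx]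
  refine (k j le_rfl x hx).trans ?_
  rw [abs_of_pos hh]
  exact mul_le_mul_of_nonneg_left (le_abs_self _) hh.le

end Crest.Agent.N207.S.Ex
end
private theorem rz_b72064f5b4 : type_of% @_root_.Crest.Agent.N207.S.Ex.roth.eq_def := @_root_.Crest.Agent.N207.S.Ex.roth.eq_def -- L89
private theorem rz_77bcf47922 : type_of% @_root_.Crest.Agent.N207.S.Ex.roth.eq_1 := @_root_.Crest.Agent.N207.S.Ex.roth.eq_1 -- L89
end

-- ▼ part N207/S/Ex/LDefs
section

/-!
Row 207, S0320, block EX: the intermediate statements (helper49).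
`CoreStmt → LocStmt → FlowStmt`.
-/

set_option autoImplicit false

open Set Filter
open scoped Topology ContDiff

noncomputable section
namespace Crest.Agent.N207.S.Ex

/-- local existence for core systems: the time depends only on a `C²` bound. -/
def CoreStmt : Prop :=
  ∀ (E : Type) [NormedAddCommGroup E] [InnerProductSpace ℝ E] [FiniteDimensional ℝ E]
    (S : Core E) (C ε : ℝ), 0 < ε → ∃ τ : ℝ, 0 < τ ∧ ∀ c : ℕ → ℝ, ∃ c' : ℕ → ℝ,
      ∀ u0 : ℝ → E, ContDiff ℝ ∞ u0 → Bd 2 C u0 → (∀ j, Bd j (c j) u0) →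
        ∃ U : ℝ → ℝ → E, IsSolF S.F 0 τ U ∧ (∀ x ∈ Icc (0 : ℝ) 1, U 0 x = u0 x) ∧
          ∀ t ∈ Icc 0 τ, ∀ x ∈ Icc (0 : ℝ) 1, ‖U t x - u0 x‖ ≤ ε ∧ ∀ j, ‖jet j (U t) x‖ ≤ c' j

/-- local existence for systems: the time depends only on a compact set and a `C³` bound. -/
def LocStmt : Prop :=
  ∀ (E : Type) [NormedAddCommGroup E] [InnerProductSpace ℝ E] [FiniteDimensional ℝ E]
    (S : Sys E) (K : Set (ℝ × E)), IsCompact K → K ⊆ S.Om → ∀ C : ℝ,
    ∃ τ : ℝ, 0 < τ ∧ ∃ K' : Set (ℝ × E), IsCompact K' ∧ K' ⊆ S.Om ∧ ∀ c : ℕ → ℝ, ∃ c' : ℕ → ℝ,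
      ∀ u0 : ℝ → E, ContDiffOn ℝ ∞ u0 (Icc 0 1) →
        (∀ x ∈ Icc (0 : ℝ) 1, (x, u0 x) ∈ K ∧ (∀ j ≤ 3, ‖jet j u0 x‖ ≤ C) ∧
          ∀ j, ‖jet j u0 x‖ ≤ c j) →
        ∃ U : ℝ → ℝ → E, IsSol S 0 τ U ∧ (∀ x ∈ Icc (0 : ℝ) 1, U 0 x = u0 x) ∧
          ∀ t ∈ Icc 0 τ, ∀ x ∈ Icc (0 : ℝ) 1, (x, U t x) ∈ K' ∧ ∀ j, ‖jet j (U t) x‖ ≤ c' j

end Crest.Agent.N207.S.Ex
end
end

-- ▼ part N207/S/Ex/Core
section

/-!
Row 207, S0320, block EX: local existence for core systems.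
-/

set_option autoImplicit false

open Set Filter
open scoped Topology ContDiff

noncomputable section
namespace Crest.Agent.N207.S.Ex


theorem core : CoreStmt := by
  intro E _ _ _ S K ε hε
  have : CompleteSpace E := FiniteDimensional.complete ℝ E
  obtain ⟨δ, h1, pδ, p1, hlow⟩ := roth_low S K
  obtain ⟨C0, pC0, hC0⟩ := step_incr S 0 (K + 1)
  have hτ : 0 < min δ (ε / (C0 + 1)) := by positivity
  refine ⟨min δ (ε / (C0 + 1)), hτ, fun c => ?_⟩
  choose c' h0 p0 p01 hc' using fun j => roth_high S p1 hlow j (c j)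
  refine ⟨c', fun u0 hu hK hc => ?_⟩
  have ev : ∀ h : ℝ, 0 < h → ∀ᶠ N in atTop, hN N ≤ h := fun h hh =>
    (tendsto_hN.eventually (gt_mem_nhds hh)).mono fun N hN => hN.le
  have le1 : ∀ (N n : ℕ), (n + 1 : ℕ) * hN N ≤ min δ (ε / (C0 + 1)) →
      n * hN N ≤ δ ∧ (n + 1 : ℕ) * hN N ≤ δ := fun N n hn => by
    have h2 := hn.trans (min_le_left _ _)
    refine ⟨le_trans ?_ h2, h2⟩
    exact mul_le_mul_of_nonneg_right (by exact_mod_cast Nat.le_succ n) (hN_pos N).le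
  have hF : ContDiff ℝ ∞ fun z : ℝ × E × E × E => S.F (z.1, z.2.1) z.2.2.1 z.2.2.2 := by
    have := S.ha
    have := S.hB
    have := S.hG
    have := contDiff_mu
    unfold Core.F
    fun_prop
  obtain ⟨D, hD, hE, h0', hb⟩ := scheme_limit (τ := min δ (ε / (C0 + 1))) (C0 := C0) (c := c')
    (w := fun N => roth S (hN N) u0) (u0 := u0) hF (fun N n => roth_smooth hu n) (fun N => rfl)
    (fun j => (ev _ (p0 j)).mono fun N hN' n hn =>
      hc' j u0 hu hK (hc j) _ (hN_pos N) hN' n (hn.trans (min_le_left _ _)))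
    (fun j => by
      by_cases hj : j = 0
      · subst hj
        refine ⟨C0, pC0, fun _ => rfl, (ev _ p1).mono fun N hN' n hn => ?_⟩
        have a := hlow u0 hu hK _ (hN_pos N) hN' n (le1 N n hn).1
        have b := hlow u0 hu hK _ (hN_pos N) hN' (n + 1) (le1 N n hn).2
        exact hC0 _ _ _ (hN_pos N) (roth_smooth hu n) a.2 (a.1.mono (by omega) le_rfl) b.1
      · obtain ⟨C, pC, hC⟩ := step_incr S j (c' (j + 2))
        refine ⟨C, pC, fun h => absurd h hj, (ev _ (p0 (j + 2))).mono fun N hN' n hn => ?_⟩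
        have a := hlow u0 hu hK _ (hN_pos N) (hN'.trans (p01 _)) n (le1 N n hn).1
        exact hC _ _ _ (hN_pos N) (roth_smooth hu n) a.2
          ((hc' _ u0 hu hK (hc _) _ (hN_pos N) hN' n (le1 N n hn).1).mono (by omega) le_rfl)
          (hc' _ u0 hu hK (hc _) _ (hN_pos N) hN' (n + 1) (le1 N n hn).2))
    ((ev _ p1).mono fun N hN' n hn x hx => by
      have a := (hlow u0 hu hK _ (hN_pos N) hN' n (le1 N n hn).1).2.2 x hx
      simp only [Lop] at a
      simp only [Core.F, iteratedDeriv_succ, iteratedDeriv_zero]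
      rw [eq_add_of_sub_eq a]
      module)
  refine ⟨D 0, hD.isSolF hτ hF hE, h0', fun t ht x hx => ⟨(hb t ht x hx).1.trans ?_, fun j => ?_⟩⟩
  · have h2 := ht.2.trans (min_le_right _ _)
    rw [le_div_iff₀ (by positivity)] at h2
    nlinarith [ht.1]
  · rw [hD.jet_eq j ht x hx]
    exact (hb t ht x hx).2 j

end Crest.Agent.N207.S.Ex
end
end

-- ▼ part N207/S/Ex/Stab
section

/-!
Row 207, S0320, block EX (helper49): vector valued jets on a rectangle, elementary operations on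
solutions and the parabolic maximum principle.
-/

set_option autoImplicit false

open Set Filter
open scoped Topology ContDiff RealInnerProductSpace

noncomputable section
namespace Crest.Agent.N207.S.Ex

section Jets
variable {E : Type*} [NormedAddCommGroup E] [NormedSpace ℝ E]

theorem ud01 : UniqueDiffOn ℝ (Icc (0 : ℝ) 1) := uniqueDiffOn_Icc zero_lt_one

theorem jet_hd {f : ℝ → E} (hf : ContDiffOn ℝ ∞ f (Icc 0 1)) (j : ℕ) {x : ℝ}
    (hx : x ∈ Icc (0 : ℝ) 1) : HasDerivWithinAt (jet j f) (jet (j + 1) f x) (Icc 0 1) x := by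
  have h := (hf.differentiableOn_iteratedDerivWithin (m := j)
    (by exact_mod_cast ENat.natCast_lt_top j) ud01 x hx).hasDerivWithinAt
  rw [jet, iteratedDerivWithin_succ]
  exact h

theorem jet_hd0 {f : ℝ → E} (hf : ContDiffOn ℝ ∞ f (Icc 0 1)) {x : ℝ}
    (hx : x ∈ Icc (0 : ℝ) 1) : HasDerivWithinAt f (jet 1 f x) (Icc 0 1) x := jet_hd hf 0 hx

theorem jet_congr {f g : ℝ → E} (h : ∀ x ∈ Icc (0 : ℝ) 1, f x = g x) (j : ℕ) {x : ℝ}
    (hx : x ∈ Icc (0 : ℝ) 1) : jet j f x = jet j g x := iteratedDerivWithin_congr h hx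

theorem jet_sub {f g : ℝ → E} (hf : ContDiffOn ℝ ∞ f (Icc 0 1)) (hg : ContDiffOn ℝ ∞ g (Icc 0 1))
    (j : ℕ) {x : ℝ} (hx : x ∈ Icc (0 : ℝ) 1) :
    jet j (fun y => f y - g y) x = jet j f x - jet j g x :=
  iteratedDerivWithin_sub hx ud01 ((hf x hx).of_le (by exact_mod_cast le_top))
    ((hg x hx).of_le (by exact_mod_cast le_top))

theorem jet_clm {F : Type*} [NormedAddCommGroup F] [NormedSpace ℝ F] (L : E →L[ℝ] F) {f : ℝ → E}
    (hf : ContDiffOn ℝ ∞ f (Icc 0 1)) (j : ℕ) {x : ℝ} (hx : x ∈ Icc (0 : ℝ) 1) :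
    jet j (fun y => L (f y)) x = L (jet j f x) := by
  have h := L.iteratedFDerivWithin_comp_left
    ((hf x hx).of_le (m := j) (by exact_mod_cast le_top)) ud01 hx le_rfl
  exact congrArg (fun L => L fun _ => (1 : ℝ)) h

theorem jet_global {f : ℝ → E} (hf : ContDiff ℝ ∞ f) (j : ℕ) {x : ℝ} (hx : x ∈ Icc (0 : ℝ) 1) :
    jet j f x = iteratedDeriv j f x :=
  iteratedDerivWithin_eq_iteratedDeriv ud01 (hf.contDiffAt.of_le (by exact_mod_cast le_top)) hx

/-- smoothness on the closed rectangle -/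
abbrev SmR (t0 t1 : ℝ) (U : ℝ → ℝ → E) : Prop :=
  ContDiffOn ℝ ∞ (fun p : ℝ × ℝ => U p.1 p.2) (Icc t0 t1 ×ˢ Icc 0 1)

variable {t0 t1 : ℝ} {U V : ℝ → ℝ → E}

theorem SmR.slice (hU : SmR t0 t1 U) {t : ℝ} (ht : t ∈ Icc t0 t1) :
    ContDiffOn ℝ ∞ (U t) (Icc 0 1) :=
  ContDiffOn.comp (f := fun y : ℝ => ((t, y) : ℝ × ℝ)) hU (by fun_prop) fun _ hy => ⟨ht, hy⟩

theorem ud_rect (h : t0 < t1) : UniqueDiffOn ℝ (Icc t0 t1 ×ˢ Icc (0 : ℝ) 1) :=
  (uniqueDiffOn_Icc h).prod ud01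

theorem SmR.hd_x (hU : SmR t0 t1 U) {t x : ℝ} (ht : t ∈ Icc t0 t1) (hx : x ∈ Icc (0 : ℝ) 1) :
    HasDerivWithinAt (U t) (fderivWithin ℝ (fun p : ℝ × ℝ => U p.1 p.2)
      (Icc t0 t1 ×ˢ Icc 0 1) (t, x) (0, 1)) (Icc 0 1) x :=
  (hU.differentiableOn (by simp) (t, x) ⟨ht, hx⟩).hasFDerivWithinAt.comp_hasDerivWithinAt
    (f := fun y : ℝ => ((t, y) : ℝ × ℝ)) x
    ((hasDerivAt_const x t).prodMk (hasDerivAt_id x)).hasDerivWithinAt fun _ hy => ⟨ht, hy⟩

theorem SmR.hd_t (hU : SmR t0 t1 U) {t x : ℝ} (ht : t ∈ Icc t0 t1) (hx : x ∈ Icc (0 : ℝ) 1) :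
    HasDerivWithinAt (fun s => U s x) (fderivWithin ℝ (fun p : ℝ × ℝ => U p.1 p.2)
      (Icc t0 t1 ×ˢ Icc 0 1) (t, x) (1, 0)) (Icc t0 t1) t :=
  (hU.differentiableOn (by simp) (t, x) ⟨ht, hx⟩).hasFDerivWithinAt.comp_hasDerivWithinAt
    (f := fun s : ℝ => ((s, x) : ℝ × ℝ)) t
    ((hasDerivAt_id t).prodMk (hasDerivAt_const t x)).hasDerivWithinAt fun _ hy => ⟨hy, hx⟩

theorem SmR.jet1_eq (hU : SmR t0 t1 U) {t x : ℝ} (ht : t ∈ Icc t0 t1) (hx : x ∈ Icc (0 : ℝ) 1) :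
    jet 1 (U t) x = fderivWithin ℝ (fun p : ℝ × ℝ => U p.1 p.2)
      (Icc t0 t1 ×ˢ Icc 0 1) (t, x) (0, 1) :=
  (ud01 x hx).eq_deriv _ (jet_hd0 (hU.slice ht) hx) (hU.hd_x ht hx)

theorem SmR.jet1 (h : t0 < t1) (hU : SmR t0 t1 U) : SmR t0 t1 fun t x => jet 1 (U t) x :=
  ((hU.fderivWithin (ud_rect h) (m := ∞) le_rfl).clm_apply
    (g := fun _ => ((0, 1) : ℝ × ℝ)) contDiffOn_const).congr fun _ hp => hU.jet1_eq hp.1 hp.2

theorem jet_succ' (j : ℕ) (f : ℝ → E) (x : ℝ) : jet (j + 1) f x = jet j (jet 1 f) x := by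
  rw [jet, iteratedDerivWithin_succ', jet, ← iteratedDerivWithin_one]

theorem SmR.jet (h : t0 < t1) (j : ℕ) : ∀ {U : ℝ → ℝ → E}, SmR t0 t1 U →
    SmR t0 t1 fun t x => jet j (U t) x := by
  induction j with
  | zero => exact fun hU => hU
  | succ j ih => exact fun hU => (ih (hU.jet1 h)).congr fun p _ => jet_succ' j _ _

/-- the time derivative commutes with the space derivative -/
theorem SmR.mixed (h : t0 < t1) (hU : SmR t0 t1 U)
    (hV : ∀ t ∈ Icc t0 t1, ∀ x ∈ Icc (0 : ℝ) 1,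
      HasDerivWithinAt (fun s => U s x) (V t x) (Icc t0 t1) t) {t x : ℝ} (ht : t ∈ Icc t0 t1)
    (hx : x ∈ Icc (0 : ℝ) 1) {d : E} (hd : HasDerivWithinAt (V t) d (Icc 0 1) x) :
    HasDerivWithinAt (fun s => Ex.jet 1 (U s) x) d (Icc t0 t1) t := by
  have hR := ud_rect h
  set R := Icc t0 t1 ×ˢ Icc (0 : ℝ) 1 with hRdef
  set F := fun p : ℝ × ℝ => U p.1 p.2 with hF
  have h1 := ((hU.fderivWithin hR (m := ∞) le_rfl).differentiableOn (by simp) (t, x)
    ⟨ht, hx⟩).hasFDerivWithinAt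
  have h2 : (t, x) ∈ closure (interior R) := by
    rw [interior_prod_eq, closure_prod_eq, interior_Icc, interior_Icc, closure_Ioo h.ne,
      closure_Ioo zero_ne_one]
    exact ⟨ht, hx⟩
  have h3 := (hU (t, x) ⟨ht, hx⟩).isSymmSndFDerivWithinAt
    (by rw [minSmoothness_of_isRCLikeNormedField]; exact WithTop.coe_le_coe.2 le_top) hR h2 ⟨ht, hx⟩
  have a1 := (h1.comp_hasDerivWithinAt (f := fun s : ℝ => ((s, x) : ℝ × ℝ)) t
    ((hasDerivAt_id t).prodMk (hasDerivAt_const t x)).hasDerivWithinAt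
    (s := Icc t0 t1) fun _ hy => ⟨hy, hx⟩).clm_apply
    (hasDerivWithinAt_const t _ ((0, 1) : ℝ × ℝ))
  have a2 := (h1.comp_hasDerivWithinAt (f := fun y : ℝ => ((t, y) : ℝ × ℝ)) x
    ((hasDerivAt_const x t).prodMk (hasDerivAt_id x)).hasDerivWithinAt
    (s := Icc 0 1) fun _ hy => ⟨ht, hy⟩).clm_apply
    (hasDerivWithinAt_const x _ ((1, 0) : ℝ × ℝ))
  have e : ∀ y ∈ Icc (0 : ℝ) 1, V t y = fderivWithin ℝ F R (t, y) (1, 0) := fun y hy =>
    (uniqueDiffOn_Icc h t ht).eq_deriv _ (hV t ht y hy) (hU.hd_t ht hy)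
  have e2 := (ud01 x hx).eq_deriv _ hd (a2.congr e (e x hx))
  refine HasDerivWithinAt.congr_deriv
    (a1.congr (fun s hs => hU.jet1_eq hs hx) (hU.jet1_eq ht hx)) ?_
  rw [e2]
  simp only [map_zero, add_zero]
  exact h3.eq _ _

theorem SmR.bdd {F : Type*} [NormedAddCommGroup F] {g : ℝ → ℝ → F}
    (h : ContinuousOn (fun p : ℝ × ℝ => g p.1 p.2) (Icc t0 t1 ×ˢ Icc 0 1)) :
    ∃ C, 0 ≤ C ∧ ∀ t ∈ Icc t0 t1, ∀ x ∈ Icc (0 : ℝ) 1, ‖g t x‖ ≤ C := by
  obtain ⟨C, hC⟩ := (isCompact_Icc.prod isCompact_Icc).exists_bound_of_continuousOn h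
  exact ⟨max C 0, le_max_right _ _, fun t ht x hx => (hC (t, x) ⟨ht, hx⟩).trans (le_max_left _ _)⟩

end Jets

section Ops
variable {E : Type} [NormedAddCommGroup E] [NormedSpace ℝ E] {S : Sys E} {t0 t1 s0 s1 : ℝ}
  {U V : ℝ → ℝ → E}

theorem IsSol.mono (h : IsSol S t0 t1 U) (h0 : t0 ≤ s0) (h1 : s1 ≤ t1) : IsSol S s0 s1 U where
  smooth := h.smooth.mono (prod_mono (Icc_subset_Icc h0 h1) subset_rfl)
  eqn t ht x hx := (h.eqn t (Icc_subset_Icc h0 h1 ht) x hx).mono (Icc_subset_Icc h0 h1)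
  mem t ht x hx := h.mem t (Icc_subset_Icc h0 h1 ht) x hx

theorem IsSol.congr (h : IsSol S t0 t1 U)
    (e : ∀ t ∈ Icc t0 t1, ∀ x ∈ Icc (0 : ℝ) 1, V t x = U t x) : IsSol S t0 t1 V where
  smooth := h.smooth.congr fun p hp => e p.1 hp.1 p.2 hp.2
  eqn t ht x hx := by
    rw [jet_congr (e t ht) 1 hx, jet_congr (e t ht) 2 hx, e t ht x hx]
    exact (h.eqn t ht x hx).congr (fun s hs => e s hs x hx) (e t ht x hx)
  mem t ht x hx := by rw [e t ht x hx]; exact h.mem t ht x hx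

theorem IsSol.shift (h : IsSol S 0 t1 U) (s : ℝ) : IsSol S s (s + t1) fun t => U (t - s) where
  smooth := h.smooth.comp (f := fun p : ℝ × ℝ => ((p.1 - s, p.2) : ℝ × ℝ)) (by fun_prop)
    fun p hp => ⟨⟨by linarith [hp.1.1], by linarith [hp.1.2]⟩, hp.2⟩
  eqn t ht x hx := by
    have h1 := (h.eqn (t - s) ⟨by linarith [ht.1], by linarith [ht.2]⟩ x hx).scomp t
      ((hasDerivAt_id' t).sub_const s).hasDerivWithinAt (s := Icc s (s + t1))
      fun r hr => (⟨by linarith [hr.1], by linarith [hr.2]⟩ : r - s ∈ Icc 0 t1)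
    rw [one_smul] at h1
    exact h1
  mem t ht x hx := h.mem (t - s) ⟨by linarith [ht.1], by linarith [ht.2]⟩ x hx

theorem IsSol.union (h : IsSol S t0 t1 U) (h' : IsSol S s0 s1 U) (hs : s0 < t1) :
    IsSol S t0 s1 U := by
  have key : ∀ t ∈ Icc t0 s1, (t ∈ Icc t0 t1 ∧ Icc t0 t1 ∈ 𝓝[Icc t0 s1] t) ∨
      (t ∈ Icc s0 s1 ∧ Icc s0 s1 ∈ 𝓝[Icc t0 s1] t) := by
    intro t ht
    rcases lt_or_ge t t1 with h1 | h1
    · refine Or.inl ⟨⟨ht.1, h1.le⟩, ?_⟩
      filter_upwards [self_mem_nhdsWithin, mem_nhdsWithin_of_mem_nhds (Iio_mem_nhds h1)]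
        with r h2 h3 using ⟨h2.1, le_of_lt h3⟩
    · refine Or.inr ⟨⟨(hs.trans_le h1).le, ht.2⟩, ?_⟩
      filter_upwards [self_mem_nhdsWithin,
        mem_nhdsWithin_of_mem_nhds (Ioi_mem_nhds (hs.trans_le h1))]
        with r h2 h3 using ⟨le_of_lt h3, h2.2⟩
  refine ⟨⟨fun p hp => ?_, fun t ht x hx => ?_⟩, fun t ht x hx => ?_⟩
  · rcases key p.1 hp.1 with ⟨h1, h2⟩ | ⟨h1, h2⟩
    · refine (h.smooth p ⟨h1, hp.2⟩).mono_of_mem_nhdsWithin ?_
      rw [show p = (p.1, p.2) from rfl, nhdsWithin_prod_eq]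
      exact prod_mem_prod h2 self_mem_nhdsWithin
    · refine (h'.smooth p ⟨h1, hp.2⟩).mono_of_mem_nhdsWithin ?_
      rw [show p = (p.1, p.2) from rfl, nhdsWithin_prod_eq]
      exact prod_mem_prod h2 self_mem_nhdsWithin
  · rcases key t ht with ⟨h1, h2⟩ | ⟨h1, h2⟩
    · exact (h.eqn t h1 x hx).mono_of_mem_nhdsWithin h2
    · exact (h'.eqn t h1 x hx).mono_of_mem_nhdsWithin h2
  · rcases key t ht with ⟨h1, -⟩ | ⟨h1, -⟩
    · exact h.mem t h1 x hx
    · exact h'.mem t h1 x hx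

end Ops

variable {E : Type*} [NormedAddCommGroup E] [InnerProductSpace ℝ E]

/-- **parabolic maximum principle** -/
theorem par_max {δ δt δ1 δ2 : ℝ → ℝ → E} {t0 t1 α0 B Γ M : ℝ}
    (hc : ContinuousOn (fun p : ℝ × ℝ => δ p.1 p.2) (Icc t0 t1 ×ˢ Icc 0 1))
    (ht : ∀ t ∈ Icc t0 t1, ∀ x ∈ Icc (0 : ℝ) 1,
      HasDerivWithinAt (fun s => δ s x) (δt t x) (Icc t0 t1) t)
    (h1 : ∀ t ∈ Icc t0 t1, ∀ x ∈ Icc (0 : ℝ) 1, HasDerivWithinAt (δ t) (δ1 t x) (Icc 0 1) x)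
    (h2 : ∀ t ∈ Icc t0 t1, ∀ x ∈ Icc (0 : ℝ) 1, HasDerivWithinAt (δ1 t) (δ2 t x) (Icc 0 1) x)
    (hα0 : 0 < α0)
    (heq : ∀ t ∈ Icc t0 t1, ∀ x ∈ Icc (0 : ℝ) 1, ∃ α κ : ℝ, α0 ≤ α ∧ (x = 0 → 0 ≤ κ) ∧
      (x = 1 → κ ≤ 0) ∧ ‖δt t x - α • (mu x • δ2 t x + κ • δ1 t x)‖ ≤
        B * (mu x * ‖δ1 t x‖) + Γ * ‖δ t x‖)
    (h0 : ∀ x ∈ Icc (0 : ℝ) 1, ‖δ t0 x‖ ≤ M) :
    ∀ t ∈ Icc t0 t1, ∀ x ∈ Icc (0 : ℝ) 1,
      ‖δ t x‖ ≤ M * Real.exp ((B ^ 2 / (16 * α0) + Γ + 1) * (t - t0)) := by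
  have hM : 0 ≤ M := (norm_nonneg _).trans (h0 0 ⟨le_rfl, zero_le_one⟩)
  set L := B ^ 2 / (16 * α0) + Γ + 1 with hL
  have key : ∀ ε > 0, ∀ t ∈ Icc t0 t1, ∀ x ∈ Icc (0 : ℝ) 1,
      ‖δ t x‖ ≤ (M + ε) * Real.exp (L * (t - t0)) := by
    intro ε hε t ht' x hx
    have hR : MP.Reg (fun _ => 0) (fun _ => 1) t0 t1 = Icc t0 t1 ×ˢ Icc 0 1 := by
      ext p; simp only [MP.Reg, mem_ofPred_eq, mem_prod, mem_Icc, and_assoc]
    have hneg := MP.neg_of_no_touch (ι := Unit) (l := fun _ => 0) (r := fun _ => 1)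
      continuousOn_const continuousOn_const
      (fun _ t x => ⟪δ t x, δ t x⟫ - ((M + ε) * Real.exp (L * (t - t0))) ^ 2)
      (fun _ => by rw [hR]; exact (hc.inner hc).sub (by fun_prop))
      (fun _ x a b => by
        have := h0 x ⟨a, b⟩
        rw [real_inner_self_eq_norm_sq, sub_self, mul_zero, Real.exp_zero, mul_one]
        nlinarith [norm_nonneg (δ t0 x)])
      (fun _ t x a1 a2 a3 a4 hz hp => ?_) (fun _ _ _ => one_pos) () t x ht'.1 ht'.2 hx.1 hx.2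
    · rw [real_inner_self_eq_norm_sq, sub_neg] at hneg
      exact (abs_lt_of_sq_lt_sq' hneg (by positivity)).2.le
    have htm : t ∈ Icc t0 t1 := ⟨a1.le, a2⟩
    have hxm : x ∈ Icc (0 : ℝ) 1 := ⟨a3, a4⟩
    obtain ⟨α, κ, b1, b2, b3, b4⟩ := heq t htm x hxm
    set G := (M + ε) * Real.exp (L * (t - t0)) with hG
    have hG0 : 0 < G := by positivity
    have hz' : ‖δ t x‖ ^ 2 = G ^ 2 := by rw [← real_inner_self_eq_norm_sq]; linarith
    have hmax : ∀ y ∈ Icc (0 : ℝ) 1, ‖δ t y‖ ≤ ‖δ t x‖ := fun y hy => by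
      have := hp () t y a1.le le_rfl hy.1 hy.2
      rw [real_inner_self_eq_norm_sq] at this
      exact abs_le_of_sq_le_sq' (by linarith) (norm_nonneg _) |>.2
    have k1 := max_inner hxm (h1 t htm) (h2 t htm x hxm) hmax b2 b3
    have hd : HasDerivWithinAt
        (fun s => ⟪δ s x, δ s x⟫ - ((M + ε) * Real.exp (L * (s - t0))) ^ 2)
        (2 * ⟪δ t x, δt t x⟫ - 2 * L * G ^ 2) (Iic t) t := by
      have c1 := ((ht t htm x hxm).inner ℝ (ht t htm x hxm)).fun_sub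
        ((((((hasDerivAt_id' t).sub_const t0).const_mul L).exp.const_mul (M + ε)).fun_pow
          2).hasDerivWithinAt)
      refine HasDerivWithinAt.congr_deriv (c1.mono_of_mem_nhdsWithin ?_) ?_
      · filter_upwards [self_mem_nhdsWithin, mem_nhdsWithin_of_mem_nhds (Ioi_mem_nhds a1)]
          with r c2 c3 using ⟨le_of_lt c3, le_trans c2 a2⟩
      · rw [real_inner_comm (δ t x) (δt t x), hG]; norm_num; ring
    have k2 := MP.deriv_nonneg_of_past a1 hd hz fun s c1 c2 => hp () s x c1.le c2.le a3 a4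
    have k3 : ⟪δ t x, δt t x⟫ ≤ α * ⟪δ t x, mu x • δ2 t x + κ • δ1 t x⟫ +
        ‖δ t x‖ * (B * (mu x * ‖δ1 t x‖) + Γ * ‖δ t x‖) := by
      have c1 := (real_inner_le_norm (δ t x) _).trans
        (mul_le_mul_of_nonneg_left b4 (norm_nonneg _))
      rw [inner_sub_right, inner_smul_right] at c1
      linarith
    have hm0 := mu_nonneg hxm
    have hm1 : mu x ≤ 1 / 4 := mu_le
    have k4 : α * ⟪δ t x, mu x • δ2 t x + κ • δ1 t x⟫ ≤ -(α0 * (mu x * ‖δ1 t x‖ ^ 2)) := by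
      have : 0 ≤ mu x * ‖δ1 t x‖ ^ 2 := by positivity
      nlinarith
    have k5 : ‖δ t x‖ * B * ‖δ1 t x‖ ≤ α0 * ‖δ1 t x‖ ^ 2 + B ^ 2 / (4 * α0) * ‖δ t x‖ ^ 2 := by
      have : α0 * ‖δ1 t x‖ ^ 2 + B ^ 2 / (4 * α0) * ‖δ t x‖ ^ 2 - ‖δ t x‖ * B * ‖δ1 t x‖ =
          (2 * α0 * ‖δ1 t x‖ - B * ‖δ t x‖) ^ 2 / (4 * α0) := by field_simp; ring
      have h3 : 0 ≤ (2 * α0 * ‖δ1 t x‖ - B * ‖δ t x‖) ^ 2 / (4 * α0) := by positivity
      linarith
    have k6 : mu x * (B ^ 2 / (4 * α0) * ‖δ t x‖ ^ 2) ≤ B ^ 2 / (16 * α0) * ‖δ t x‖ ^ 2 := by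
      rw [show B ^ 2 / (16 * α0) * ‖δ t x‖ ^ 2 = 1 / 4 * (B ^ 2 / (4 * α0) * ‖δ t x‖ ^ 2) by
        field_simp; ring]
      exact mul_le_mul_of_nonneg_right hm1 (by positivity)
    have k7 := mul_le_mul_of_nonneg_left k5 hm0
    have k8 : 0 < G ^ 2 := by positivity
    rw [← hz'] at k2 k8
    rw [hL] at k2
    nlinarith
  intro t ht' x hx
  refine le_of_forall_pos_le_add fun ε hε => ?_
  have hE := Real.exp_pos (L * (t - t0))
  have := key (ε / Real.exp (L * (t - t0))) (by positivity) t ht' x hx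
  rwa [add_mul, div_mul_cancel₀ _ hE.ne'] at this

end Crest.Agent.N207.S.Ex
end
end

-- ▼ part N207/S/Ex/Stab2
section

/-!
Row 207, S0320, block EX (helper49): globalisation of a system, stability and uniqueness.
-/

set_option autoImplicit false

open Set Filter
open scoped Topology ContDiff Manifold

noncomputable section
namespace Crest.Agent.N207.S.Ex

/-- a globally defined system in normal form -/
structure Glob (E : Type) [NormedAddCommGroup E] [NormedSpace ℝ E] where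
  b : ℕ
  a : ℝ × E → ℝ
  Psi : (ℝ × E) × E → E
  β : (ℝ × E) × E → E →L[ℝ] E
  ha : ContDiff ℝ ∞ a
  hPsi : ContDiff ℝ ∞ Psi
  hβ : ContDiff ℝ ∞ β
  apos : ∀ y, 0 < a y
  dP : ∀ q : (ℝ × E) × E, (fderiv ℝ Psi q).comp (ContinuousLinearMap.inr ℝ (ℝ × E) E) =
    (a q.1 * b * (1 - 2 * q.1.1)) • ContinuousLinearMap.id ℝ E + mu q.1.1 • β q

theorem smooth_cut {X F : Type*} [NormedAddCommGroup X] [NormedSpace ℝ X] [NormedAddCommGroup F]
    [NormedSpace ℝ F] {O : Set X} (hO : IsOpen O) {f : X → F} (hf : ContDiffOn ℝ ∞ f O)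
    {χ : X → ℝ} (hχ : ContDiff ℝ ∞ χ) (h0 : ∀ y ∉ O, ∀ᶠ z in 𝓝 y, χ z = 0) :
    ContDiff ℝ ∞ fun y => χ y • f y := by
  rw [contDiff_iff_contDiffAt]
  intro y
  by_cases hy : y ∈ O
  · exact hχ.contDiffAt.smul (hf.contDiffAt (hO.mem_nhds hy))
  · refine (contDiffAt_const (c := 0)).congr_of_eventuallyEq ?_
    filter_upwards [h0 y hy] with z hz
    rw [hz, zero_smul]

variable {E : Type} [NormedAddCommGroup E] [InnerProductSpace ℝ E] [FiniteDimensional ℝ E]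

omit [FiniteDimensional ℝ E] in
theorem hasFDerivAt_inr {Ψ : (ℝ × E) × E → E} (h : ContDiff ℝ ∞ Ψ) (y : ℝ × E) (p : E) :
    HasFDerivAt (fun r => Ψ (y, r))
      ((fderiv ℝ Ψ (y, p)).comp (ContinuousLinearMap.inr ℝ (ℝ × E) E)) p :=
  HasFDerivAt.comp (f := fun r : E => (y, r)) p (h.differentiable (by simp) (y, p)).hasFDerivAt
    (hasFDerivAt_prodMk_right y p)

theorem ex_glob (S : Sys E) {K : Set (ℝ × E)} (hK : IsClosed K) (hKO : K ⊆ S.Om) :
    ∃ G : Glob E, G.b = S.b ∧ ∀ y ∈ K, G.a y = S.a y ∧ ∀ p, G.Psi (y, p) = S.Psi (y, p) := by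
  have : CompleteSpace E := FiniteDimensional.complete ℝ E
  obtain ⟨χ, h0, h1, h01⟩ := exists_contMDiffMap_zero_one_nhds_of_isClosed (n := ⊤) 𝓘(ℝ, ℝ × E)
    S.isOpen.isClosed_compl hK (disjoint_compl_left_iff_subset.2 hKO)
  have hχ : ContDiff ℝ ∞ χ := χ.contMDiff.contDiff
  have h0' : ∀ y ∉ S.Om, ∀ᶠ z in 𝓝 y, χ z = 0 := fun y hy =>
    (eventually_nhdsSet_iff_forall.1 h0) y hy
  set a : ℝ × E → ℝ := fun y => χ y • S.a y + (1 - χ y) with ha
  set Ψ : (ℝ × E) × E → E := fun q =>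
    χ q.1 • S.Psi q + ((1 - χ q.1) * S.b * (1 - 2 * q.1.1)) • q.2 with hΨ
  have sa : ContDiff ℝ ∞ a := (smooth_cut S.isOpen S.ha hχ h0').add (contDiff_const.sub hχ)
  have sΨ : ContDiff ℝ ∞ Ψ := by
    refine (smooth_cut (χ := fun q : (ℝ × E) × E => χ q.1) (S.isOpen.prod isOpen_univ) S.hPsi
      (hχ.comp contDiff_fst) fun q hq => ?_).add ?_
    · exact (continuous_fst.tendsto q).eventually (h0' q.1 fun h => hq ⟨h, trivial⟩)
    · exact (((contDiff_const.sub (hχ.comp contDiff_fst)).mul contDiff_const).mul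
        (by fun_prop)).smul contDiff_snd
  set R : (ℝ × E) × E → E →L[ℝ] E := fun q =>
    (fderiv ℝ Ψ q).comp (ContinuousLinearMap.inr ℝ (ℝ × E) E) -
      (a q.1 * S.b * (1 - 2 * q.1.1)) • ContinuousLinearMap.id ℝ E with hR
  have sR : ContDiff ℝ ∞ R :=
    ((sΨ.fderiv_right (m := ∞) (by simp)).clm_comp contDiff_const).sub
      ((((sa.comp contDiff_fst).mul contDiff_const).mul (by fun_prop)).smul contDiff_const)
  have hz : ∀ (x : ℝ) (u p : E), (∀ r, Ψ ((x, u), r) = Ψ ((x, u), 0) +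
      (a (x, u) * S.b * (1 - 2 * x)) • r) → R ((x, u), p) = 0 := by
    intro x u p h
    have h2 : HasFDerivAt (fun r : E => Ψ ((x, u), 0) + (a (x, u) * S.b * (1 - 2 * x)) • r)
        ((a (x, u) * S.b * (1 - 2 * x)) • ContinuousLinearMap.id ℝ E) p :=
      ((hasFDerivAt_id p).const_smul _).const_add _
    rw [← funext h] at h2
    exact sub_eq_zero.2 ((hasFDerivAt_inr sΨ (x, u) p).unique h2)
  have z0 : ∀ u p : E, R ((0, u), p) = 0 := fun u p => hz 0 u p fun r => by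
    by_cases h : ((0 : ℝ), u) ∈ S.Om
    · simp only [hΨ, ha, S.pole0 u r h, smul_eq_mul]
      module
    · simp only [hΨ, ha, (h0' _ h).self_of_nhds, smul_eq_mul]
      module
  have z1 : ∀ u p : E, R ((1, u), p) = 0 := fun u p => hz 1 u p fun r => by
    by_cases h : ((1 : ℝ), u) ∈ S.Om
    · simp only [hΨ, ha, S.pole1 u r h, smul_eq_mul]
      module
    · simp only [hΨ, ha, (h0' _ h).self_of_nhds, smul_eq_mul]
      module
  set l : ((ℝ × E) × E) →L[ℝ] ℝ :=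
    (ContinuousLinearMap.fst ℝ ℝ E).comp (ContinuousLinearMap.fst ℝ (ℝ × E) E) with hl
  obtain ⟨g0, sg0, e0⟩ := N250.Or.hadamard_lin sR l ((1, 0), 0) 0
  obtain ⟨g1, sg1, e1⟩ := N250.Or.hadamard_lin sR l ((1, 0), 0) ((1, 0), 0)
  refine ⟨⟨S.b, a, Ψ, fun q => g0 q - g1 q, sa, sΨ, sg0.sub sg1, fun y => ?_, fun q => ?_⟩, rfl,
    fun y hy => ?_⟩
  · by_cases h : y ∈ S.Om
    · have := S.apos y h
      rcases (h01 y).2.eq_or_lt with h2 | h2
      · simpa [ha, h2] using this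
      · have := mul_nonneg (h01 y).1 this.le
        simp only [ha, smul_eq_mul]; linarith
    · simp [ha, (h0' _ h).self_of_nhds]
  · obtain ⟨⟨x, u⟩, p⟩ := q
    have f0 := e0 ((x, u), p)
    have f1 := e1 ((x, u), p)
    rw [show ((x, u), p) - l (((x, u), p) - 0) • ((((1 : ℝ), (0 : E)), (0 : E)) : (ℝ × E) × E) =
      ((0, u), p) by simp [hl], z0, zero_add, show l (((x, u), p) - 0) = x by simp [hl]] at f0
    rw [show ((x, u), p) - l (((x, u), p) - ((1, 0), 0)) •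
      ((((1 : ℝ), (0 : E)), (0 : E)) : (ℝ × E) × E) = ((1, u), p) by simp [hl], z1, zero_add,
      show l (((x, u), p) - ((1, 0), 0)) = x - 1 by simp [hl]] at f1
    rw [← sub_eq_iff_eq_add']
    change R ((x, u), p) = mu x • (g0 ((x, u), p) - g1 ((x, u), p))
    calc R ((x, u), p) = (1 - x) • R ((x, u), p) + x • R ((x, u), p) := by module
      _ = (1 - x) • x • g0 ((x, u), p) + x • (x - 1) • g1 ((x, u), p) := by rw [← f0, ← f1]
      _ = _ := by unfold mu; module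
  · have h2 : χ y = 1 := h1.self_of_nhdsSet y hy
    exact ⟨by simp [ha, h2], fun p => by simp [hΨ, h2]⟩

/-- **stability** -/
theorem stab (S : Sys E) {K : Set (ℝ × E)} (hK : IsCompact K) (hKO : K ⊆ S.Om) (C : ℝ) :
    ∃ L : ℝ, 0 ≤ L ∧ ∀ (t0 t1 M : ℝ) (U V : ℝ → ℝ → E), IsSol S t0 t1 U → IsSol S t0 t1 V →
      (∀ t ∈ Icc t0 t1, ∀ x ∈ Icc (0 : ℝ) 1, (x, U t x) ∈ K ∧ (x, V t x) ∈ K ∧
        ‖jet 1 (U t) x‖ ≤ C ∧ ‖jet 1 (V t) x‖ ≤ C ∧ ‖jet 2 (V t) x‖ ≤ C) →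
      (∀ x ∈ Icc (0 : ℝ) 1, ‖U t0 x - V t0 x‖ ≤ M) →
      ∀ t ∈ Icc t0 t1, ∀ x ∈ Icc (0 : ℝ) 1, ‖U t x - V t x‖ ≤ M * Real.exp (L * (t - t0)) := by
  obtain ⟨G, hb, hG⟩ := ex_glob S hK.isClosed hKO
  have hK2 : IsCompact (K ×ˢ Metric.closedBall (0 : E) C) := hK.prod (isCompact_closedBall _ _)
  obtain ⟨La, hLa⟩ := (G.ha.of_le (m := 1) (by exact_mod_cast le_top)).locallyLipschitz
    |>.locallyLipschitzOn.exists_lipschitzOnWith_of_compact hK
  obtain ⟨LP, hLP⟩ := (G.hPsi.of_le (m := 1) (by exact_mod_cast le_top)).locallyLipschitz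
    |>.locallyLipschitzOn.exists_lipschitzOnWith_of_compact hK2
  obtain ⟨B, hB⟩ := hK2.exists_bound_of_continuousOn G.hβ.continuous.continuousOn
  obtain ⟨α0, hα0, hα⟩ := hK.exists_forall_le' G.ha.continuous.continuousOn fun y _ => G.apos y
  refine ⟨B ^ 2 / (16 * α0) + (La * |C| + LP) + 1, by positivity,
    fun t0 t1 M U V hU hV hb' h0 => ?_⟩
  refine par_max (δ := fun t x => U t x - V t x)
    (δ1 := fun t x => jet 1 (U t) x - jet 1 (V t) x)
    (δ2 := fun t x => jet 2 (U t) x - jet 2 (V t) x)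
    (hU.smooth.continuousOn.sub hV.smooth.continuousOn)
    (fun t ht x hx => (hU.eqn t ht x hx).fun_sub (hV.eqn t ht x hx))
    (fun t ht x hx => (jet_hd0 (SmR.slice hU.smooth ht) hx).fun_sub
      (jet_hd0 (SmR.slice hV.smooth ht) hx))
    (fun t ht x hx => (jet_hd (SmR.slice hU.smooth ht) 1 hx).fun_sub
      (jet_hd (SmR.slice hV.smooth ht) 1 hx)) hα0 (fun t ht x hx => ?_) h0
  obtain ⟨k1, k2, k3, k4, k5⟩ := hb' t ht x hx
  have hb0 : (0 : ℝ) ≤ G.b := Nat.cast_nonneg _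
  refine ⟨G.a (x, U t x), G.b * (1 - 2 * x), hα _ k1, fun h => by rw [h]; linarith,
    fun h => by rw [h]; linarith, ?_⟩
  generalize jet 1 (U t) x = u1 at k3 ⊢
  generalize jet 1 (V t) x = v1 at k4 ⊢
  generalize jet 2 (U t) x = u2
  generalize jet 2 (V t) x = v2 at k5 ⊢
  generalize U t x = u at k1 ⊢
  generalize V t x = v at k2 ⊢
  have m1 : u1 ∈ Metric.closedBall (0 : E) C := by simpa using k3
  have m2 : v1 ∈ Metric.closedBall (0 : E) C := by simpa using k4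
  have hm := mu_nonneg hx
  have e1 : ‖(G.Psi ((x, u), u1) - (G.a (x, u) * G.b * (1 - 2 * x)) • u1) -
      (G.Psi ((x, u), v1) - (G.a (x, u) * G.b * (1 - 2 * x)) • v1)‖ ≤ mu x * B * ‖u1 - v1‖ := by
    refine (convex_closedBall (0 : E) C).norm_image_sub_le_of_norm_hasFDerivWithin_le
      (𝕜 := ℝ) (f := fun r => G.Psi ((x, u), r) - (G.a (x, u) * G.b * (1 - 2 * x)) • r)
      (f' := fun r => mu x • G.β ((x, u), r)) (fun r _ => ?_) (fun r hr => ?_) m2 m1
    · have h1 := (hasFDerivAt_inr G.hPsi (x, u) r).fun_sub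
        ((hasFDerivAt_id r).fun_const_smul (G.a (x, u) * G.b * (1 - 2 * x)))
      rw [G.dP, add_sub_cancel_left] at h1
      exact h1.hasFDerivWithinAt
    · rw [norm_smul, Real.norm_of_nonneg hm]
      exact mul_le_mul_of_nonneg_left (hB ((x, u), r) ⟨k1, hr⟩) hm
  have e2 : ‖G.Psi ((x, u), v1) - G.Psi ((x, v), v1)‖ ≤ LP * ‖u - v‖ := by
    have := hLP.norm_sub_le (x := ((x, u), v1)) (y := ((x, v), v1)) ⟨k1, m2⟩ ⟨k2, m2⟩
    simpa [Prod.norm_def] using this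
  have e3 : ‖((G.a (x, u) - G.a (x, v)) * mu x) • v2‖ ≤ La * |C| * ‖u - v‖ := by
    have h1 := hLa.norm_sub_le k1 k2
    have h2 : ‖((x, u) : ℝ × E) - (x, v)‖ = ‖u - v‖ := by simp [Prod.norm_def]
    rw [h2] at h1
    rw [norm_smul, norm_mul, Real.norm_of_nonneg hm]
    have h3 : mu x * ‖v2‖ ≤ |C| := by
      have : mu x ≤ 1 / 4 := mu_le
      nlinarith [le_abs_self C, norm_nonneg v2]
    calc _ = ‖G.a (x, u) - G.a (x, v)‖ * (mu x * ‖v2‖) := by ring
      _ ≤ La * ‖u - v‖ * |C| := mul_le_mul h1 h3 (by positivity) (by positivity)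
      _ = _ := by ring
  have e4 : S.F (x, u) u1 u2 - S.F (x, v) v1 v2 -
      G.a (x, u) • (mu x • (u2 - v2) + ((G.b : ℝ) * (1 - 2 * x)) • (u1 - v1)) =
      ((G.Psi ((x, u), u1) - (G.a (x, u) * G.b * (1 - 2 * x)) • u1) -
        (G.Psi ((x, u), v1) - (G.a (x, u) * G.b * (1 - 2 * x)) • v1)) +
      (G.Psi ((x, u), v1) - G.Psi ((x, v), v1)) + ((G.a (x, u) - G.a (x, v)) * mu x) • v2 := by
    simp only [Sys.F, ← (hG _ k1).1, ← (hG _ k2).1, ← (hG _ k1).2, ← (hG _ k2).2]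
    module
  rw [e4]
  refine (norm_add₃_le).trans ?_
  linarith

omit [FiniteDimensional ℝ E] in
theorem IsSol.cpt {S : Sys E} {t0 t1 : ℝ} {U : ℝ → ℝ → E} (h : t0 < t1) (hU : IsSol S t0 t1 U) :
    ∃ K : Set (ℝ × E), IsCompact K ∧ K ⊆ S.Om ∧ ∃ c : ℕ → ℝ, ∀ t ∈ Icc t0 t1,
      ∀ x ∈ Icc (0 : ℝ) 1, (x, U t x) ∈ K ∧ ∀ j, ‖jet j (U t) x‖ ≤ c j := by
  choose c _ hc using fun j => SmR.bdd (t0 := t0) (t1 := t1) (g := fun t x => jet j (U t) x)
    (SmR.jet h j hU.smooth).continuousOn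
  refine ⟨(fun p : ℝ × ℝ => (p.2, U p.1 p.2)) '' (Icc t0 t1 ×ˢ Icc 0 1),
    (isCompact_Icc.prod isCompact_Icc).image_of_continuousOn
      (continuousOn_snd.prodMk hU.smooth.continuousOn), ?_, c,
    fun t ht x hx => ⟨⟨(t, x), ⟨ht, hx⟩, rfl⟩, fun j => hc j t ht x hx⟩⟩
  rintro _ ⟨p, hp, rfl⟩
  exact hU.mem p.1 hp.1 p.2 hp.2

/-- **uniqueness** -/
theorem IsSol.uniq {S : Sys E} {t0 t1 : ℝ} {U V : ℝ → ℝ → E} (hU : IsSol S t0 t1 U)
    (hV : IsSol S t0 t1 V) (h0 : ∀ x ∈ Icc (0 : ℝ) 1, U t0 x = V t0 x) :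
    ∀ t ∈ Icc t0 t1, ∀ x ∈ Icc (0 : ℝ) 1, U t x = V t x := by
  intro t ht x hx
  rcases ht.1.eq_or_lt with rfl | h
  · exact h0 x hx
  obtain ⟨K, hK, hKO, c, hc⟩ := hU.cpt (h.trans_le ht.2)
  obtain ⟨K', hK', hKO', c', hc'⟩ := hV.cpt (h.trans_le ht.2)
  obtain ⟨L, -, hL⟩ := stab S (hK.union hK') (union_subset hKO hKO') (max (c 1) (max (c' 1) (c' 2)))
  have := hL t0 t1 0 U V hU hV (fun s hs y hy => ⟨Or.inl (hc s hs y hy).1, Or.inr (hc' s hs y hy).1,
    ((hc s hs y hy).2 1).trans (le_max_left _ _),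
    ((hc' s hs y hy).2 1).trans ((le_max_left _ _).trans (le_max_right _ _)),
    ((hc' s hs y hy).2 2).trans ((le_max_right _ _).trans (le_max_right _ _))⟩)
    (fun y hy => by rw [h0 y hy, sub_self, norm_zero]) t ht x hx
  rwa [zero_mul, norm_le_zero_iff, sub_eq_zero] at this

end Crest.Agent.N207.S.Ex
end
end

-- ▼ part N207/S/Ex/Pro1
section

/-!
Row 207, S0320, block EX (helper49): propagation of the constraint `P = U'` for the prolonged
system.
-/

set_option autoImplicit false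

open Set Filter
open scoped Topology ContDiff

noncomputable section
namespace Crest.Agent.N207.S.Ex

variable {E : Type} [NormedAddCommGroup E] [InnerProductSpace ℝ E]

/-- first row of the prolonged system -/
def Glob.FU (G : Glob E) (x : ℝ) (u p u1 u2 : E) : E :=
  G.a (x, u) • (mu x • u2 + (((G.b : ℝ) + 1) * (1 - 2 * x)) • u1) +
    (G.Psi ((x, u), p) - (G.a (x, u) * ((G.b : ℝ) + 1) * (1 - 2 * x)) • p)

/-- second row of the prolonged system -/
def Glob.FP (G : Glob E) (x : ℝ) (u p p1 p2 : E) : E :=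
  G.a (x, u) • (mu x • p2 + (((G.b : ℝ) + 1) * (1 - 2 * x)) • p1) +
    (fderiv ℝ G.a (x, u) (1, p) • mu x • p1 + G.β ((x, u), p) (mu x • p1)) +
    fderiv ℝ G.Psi ((x, u), p) ((1, p), 0)

/-- space derivative of the first row -/
def Glob.DU (G : Glob E) (x : ℝ) (u p u1 p1 u2 u3 : E) : E :=
  G.a (x, u) • (mu x • u3 + (1 - 2 * x) • u2 + ((((G.b : ℝ) + 1) * (1 - 2 * x)) • u2 -
      (2 * ((G.b : ℝ) + 1)) • u1)) +
    fderiv ℝ G.a (x, u) (1, u1) • (mu x • u2 + (((G.b : ℝ) + 1) * (1 - 2 * x)) • u1) +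
    (fderiv ℝ G.Psi ((x, u), p) ((1, u1), p1) -
      ((G.a (x, u) * ((G.b : ℝ) + 1) * (1 - 2 * x)) • p1 +
        (fderiv ℝ G.a (x, u) (1, u1) * ((G.b : ℝ) + 1) * (1 - 2 * x) -
          2 * G.a (x, u) * ((G.b : ℝ) + 1)) • p))

theorem Glob.hd_FU (G : Glob E) {u p : ℝ → E} (hu : ContDiffOn ℝ ∞ u (Icc 0 1))
    (hp : ContDiffOn ℝ ∞ p (Icc 0 1)) {x : ℝ} (hx : x ∈ Icc (0 : ℝ) 1) :
    HasDerivWithinAt (fun y => G.FU y (u y) (p y) (jet 1 u y) (jet 2 u y))
      (G.DU x (u x) (p x) (jet 1 u x) (jet 1 p x) (jet 2 u x) (jet 3 u x)) (Icc 0 1) x := by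
  have c1 : HasDerivWithinAt (fun y => ((y, u y) : ℝ × E)) (1, jet 1 u x) (Icc 0 1) x :=
    (hasDerivWithinAt_id x _).prodMk (jet_hd0 hu hx)
  have ha : HasDerivWithinAt (fun y => G.a (y, u y)) (fderiv ℝ G.a (x, u x) (1, jet 1 u x))
      (Icc 0 1) x :=
    (G.ha.differentiable (by simp) (x, u x)).hasFDerivAt.comp_hasDerivWithinAt x c1
  have hΨ : HasDerivWithinAt (fun y => G.Psi ((y, u y), p y))
      (fderiv ℝ G.Psi ((x, u x), p x) ((1, jet 1 u x), jet 1 p x)) (Icc 0 1) x :=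
    (G.hPsi.differentiable (by simp) ((x, u x), p x)).hasFDerivAt.comp_hasDerivWithinAt
      (f := fun y => (((y, u y), p y) : (ℝ × E) × E)) x (c1.prodMk (jet_hd0 hp hx))
  have hk : HasDerivWithinAt (fun y : ℝ => 1 - 2 * y) (-2) (Icc 0 1) x := by
    simpa using (((hasDerivAt_id' x).const_mul 2).const_sub 1).hasDerivWithinAt
  refine HasDerivWithinAt.congr_deriv ((ha.fun_smul
    (((hasDerivAt_mu x).hasDerivWithinAt.fun_smul (jet_hd hu 2 hx)).fun_add
      ((hk.const_mul ((G.b : ℝ) + 1)).fun_smul (jet_hd hu 1 hx)))).fun_add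
    (hΨ.fun_sub (((ha.mul_const ((G.b : ℝ) + 1)).fun_mul hk).fun_smul (jet_hd0 hp hx)))) ?_
  unfold Glob.DU
  module

theorem Glob.rem (G : Glob E) (x : ℝ) (u p u1 p1 u2 p2 u3 : E) :
    G.FP x u p p1 p2 - G.DU x u p u1 p1 u2 u3 -
      G.a (x, u) • (mu x • (p2 - u3) + (((G.b : ℝ) + 2) * (1 - 2 * x)) • (p1 - u2)) =
    fderiv ℝ G.a (x, u) (1, u1) • mu x • (p1 - u2) +
      ((mu x * fderiv ℝ G.a (x, u) (0, p - u1)) • p1 +
        (((G.b : ℝ) + 1) * ((1 - 2 * x) * fderiv ℝ G.a (x, u) (1, u1) - 2 * G.a (x, u))) • (p - u1) +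
        fderiv ℝ G.Psi ((x, u), p) ((0, p - u1), 0)) := by
  have e1 : fderiv ℝ G.a (x, u) (1, p) =
      fderiv ℝ G.a (x, u) (1, u1) + fderiv ℝ G.a (x, u) (0, p - u1) := by
    rw [← map_add]; simp
  have e2 := congrArg (fun L : E →L[ℝ] E => L p1) (G.dP ((x, u), p))
  simp only [ContinuousLinearMap.comp_apply, ContinuousLinearMap.inr_apply,
    add_apply, smul_apply,
    ContinuousLinearMap.id_apply] at e2
  have e3 : fderiv ℝ G.Psi ((x, u), p) ((1, u1), p1) =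
      fderiv ℝ G.Psi ((x, u), p) ((1, p), 0) - fderiv ℝ G.Psi ((x, u), p) ((0, p - u1), 0) +
        fderiv ℝ G.Psi ((x, u), p) (0, p1) := by
    rw [← map_sub, ← map_add]; simp
  unfold Glob.FP Glob.DU
  rw [e1, e3, e2, map_smul]
  module

/-- **the constraint is preserved** -/
theorem Glob.constraint (G : Glob E) {τ : ℝ} (hτ : 0 < τ) {U P : ℝ → ℝ → E} (sU : SmR 0 τ U)
    (sP : SmR 0 τ P)
    (eU : ∀ t ∈ Icc 0 τ, ∀ x ∈ Icc (0 : ℝ) 1, HasDerivWithinAt (fun s => U s x)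
      (G.FU x (U t x) (P t x) (jet 1 (U t) x) (jet 2 (U t) x)) (Icc 0 τ) t)
    (eP : ∀ t ∈ Icc 0 τ, ∀ x ∈ Icc (0 : ℝ) 1, HasDerivWithinAt (fun s => P s x)
      (G.FP x (U t x) (P t x) (jet 1 (P t) x) (jet 2 (P t) x)) (Icc 0 τ) t)
    (h0 : ∀ x ∈ Icc (0 : ℝ) 1, P 0 x = jet 1 (U 0) x) :
    ∀ t ∈ Icc 0 τ, ∀ x ∈ Icc (0 : ℝ) 1, P t x = jet 1 (U t) x := by
  have c1 : ContinuousOn (fun p : ℝ × ℝ => ((p.2, U p.1 p.2) : ℝ × E)) (Icc 0 τ ×ˢ Icc 0 1) :=
    continuousOn_snd.prodMk sU.continuousOn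
  have cU1 := (sU.jet1 hτ).continuousOn
  have ca := G.ha.continuous.comp_continuousOn c1
  have cD := (G.ha.continuous_fderiv (by simp)).comp_continuousOn c1
  obtain ⟨α0, hα0, hα⟩ := (isCompact_Icc.prod isCompact_Icc).exists_forall_le' ca
    fun p _ => G.apos _
  obtain ⟨B, hB0, hB⟩ := SmR.bdd (t0 := 0) (t1 := τ)
    (g := fun t x => fderiv ℝ G.a (x, U t x) (1, jet 1 (U t) x))
    (cD.clm_apply (continuousOn_const.prodMk cU1))
  obtain ⟨N1, hN10, hN1⟩ := SmR.bdd (t0 := 0) (t1 := τ) (g := fun t x => fderiv ℝ G.a (x, U t x))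
    (by exact cD)
  obtain ⟨N2, hN20, hN2⟩ := SmR.bdd (t0 := 0) (t1 := τ) (g := fun t x => jet 1 (P t) x)
    (sP.jet1 hτ).continuousOn
  obtain ⟨N3, hN30, hN3⟩ := SmR.bdd (t0 := 0) (t1 := τ) (g := fun t x => ((G.b : ℝ) + 1) *
    ((1 - 2 * x) * fderiv ℝ G.a (x, U t x) (1, jet 1 (U t) x) - 2 * G.a (x, U t x)))
    (continuousOn_const.mul (((continuousOn_const.sub (continuousOn_const.mul continuousOn_snd)).mul
      (cD.clm_apply (continuousOn_const.prodMk cU1))).sub (continuousOn_const.mul ca)))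
  obtain ⟨N4, hN40, hN4⟩ := SmR.bdd (t0 := 0) (t1 := τ)
    (g := fun t x => fderiv ℝ G.Psi ((x, U t x), P t x))
    (by exact (G.hPsi.continuous_fderiv (by simp)).comp_continuousOn (c1.prodMk sP.continuousOn))
  have key := par_max (δ := fun t x => P t x - jet 1 (U t) x)
    (δ1 := fun t x => jet 1 (P t) x - jet 2 (U t) x)
    (δ2 := fun t x => jet 2 (P t) x - jet 3 (U t) x) (B := B) (Γ := N1 * N2 + N3 + N4) (M := 0)
    (sP.continuousOn.sub cU1)
    (fun t ht x hx => (eP t ht x hx).fun_sub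
      (sU.mixed hτ eU ht hx (G.hd_FU (sU.slice ht) (sP.slice ht) hx)))
    (fun t ht x hx => (jet_hd0 (sP.slice ht) hx).fun_sub (jet_hd (sU.slice ht) 1 hx))
    (fun t ht x hx => (jet_hd (sP.slice ht) 1 hx).fun_sub (jet_hd (sU.slice ht) 2 hx)) hα0
    (fun t ht x hx => ?_) (fun x hx => by rw [h0 x hx, sub_self, norm_zero])
  · intro t ht x hx
    have := key t ht x hx
    rwa [zero_mul, norm_le_zero_iff, sub_eq_zero] at this
  have hb0 : (0 : ℝ) ≤ G.b := Nat.cast_nonneg _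
  refine ⟨G.a (x, U t x), ((G.b : ℝ) + 2) * (1 - 2 * x), hα (t, x) ⟨ht, hx⟩,
    fun h => by rw [h]; linarith, fun h => by rw [h]; linarith, ?_⟩
  rw [G.rem]
  have hm := mu_nonneg hx
  have hm1 : mu x ≤ 1 / 4 := mu_le
  have hd := norm_nonneg (P t x - jet 1 (U t) x)
  refine (norm_add_le _ _).trans (add_le_add ?_ (norm_add₃_le.trans ?_))
  · rw [norm_smul, norm_smul, Real.norm_of_nonneg hm]
    exact mul_le_mul_of_nonneg_right (hB t ht x hx) (by positivity)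
  · rw [add_mul (N1 * N2 + N3), add_mul (N1 * N2)]
    refine add_le_add (add_le_add ?_ ?_) ?_
    · rw [norm_smul, norm_mul, Real.norm_of_nonneg hm]
      have h1 : ‖fderiv ℝ G.a (x, U t x) (0, P t x - jet 1 (U t) x)‖ ≤
          N1 * ‖P t x - jet 1 (U t) x‖ := by
        simpa [Prod.norm_def] using (fderiv ℝ G.a (x, U t x)).le_of_opNorm_le (hN1 t ht x hx)
          (0, P t x - jet 1 (U t) x)
      calc _ ≤ 1 * (N1 * ‖P t x - jet 1 (U t) x‖) * N2 :=
            mul_le_mul (mul_le_mul (by linarith) h1 (norm_nonneg _) zero_le_one) (hN2 t ht x hx)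
              (norm_nonneg _) (by positivity)
        _ = _ := by ring
    · rw [norm_smul]
      exact mul_le_mul_of_nonneg_right (hN3 t ht x hx) hd
    · simpa [Prod.norm_def] using (fderiv ℝ G.Psi ((x, U t x), P t x)).le_of_opNorm_le
        (hN4 t ht x hx) ((0, P t x - jet 1 (U t) x), 0)

end Crest.Agent.N207.S.Ex
end
end

-- ▼ part N207/S/Ex/Asm1
section

/-!
Row 207, S0320, block EX (helper49): interpolation, gluing, solutions for nearby data.
-/

set_option autoImplicit false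

open Set Filter
open scoped Topology ContDiff

noncomputable section
namespace Crest.Agent.N207.S.Ex

section
variable {E : Type*} [NormedAddCommGroup E] [NormedSpace ℝ E]

theorem landau1 {f f1 f2 : ℝ → E} {M c h : ℝ}
    (h1 : ∀ x ∈ Icc (0 : ℝ) 1, HasDerivWithinAt f (f1 x) (Icc 0 1) x)
    (h2 : ∀ x ∈ Icc (0 : ℝ) 1, HasDerivWithinAt f1 (f2 x) (Icc 0 1) x)
    (hM : ∀ x ∈ Icc (0 : ℝ) 1, ‖f x‖ ≤ M) (hc : ∀ x ∈ Icc (0 : ℝ) 1, ‖f2 x‖ ≤ c) (hh : 0 < h)
    (hh' : h ≤ 1 / 2) {x : ℝ} (hx : x ∈ Icc (0 : ℝ) 1) : h * ‖f1 x‖ ≤ 2 * M + c * h * h := by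
  have hc0 : 0 ≤ c := (norm_nonneg _).trans (hc x hx)
  obtain ⟨y, hy, hxy⟩ : ∃ y ∈ Icc (0 : ℝ) 1, |y - x| = h := by
    rcases le_total x (1 / 2) with h3 | h3
    · exact ⟨x + h, ⟨by linarith [hx.1], by linarith⟩, by simp [abs_of_pos hh]⟩
    · exact ⟨x - h, ⟨by linarith, by linarith [hx.2]⟩, by simp [abs_of_pos hh]⟩
  have hsub : uIcc x y ⊆ Icc 0 1 := uIcc_subset_Icc hx hy
  have k1 : ∀ s ∈ uIcc x y, ‖f1 s - f1 x‖ ≤ c * h := fun s hs => by
    refine ((convex_Icc (0 : ℝ) 1).norm_image_sub_le_of_norm_hasDerivWithin_le h2 hc hx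
      (hsub hs)).trans (mul_le_mul_of_nonneg_left ?_ hc0)
    rw [← hxy]
    exact abs_sub_left_of_mem_uIcc hs
  have k2 := (convex_uIcc x y).norm_image_sub_le_of_norm_hasDerivWithin_le
    (f := fun s => f s - (s - x) • f1 x) (f' := fun s => f1 s - f1 x)
    (fun s hs => by
      have := ((h1 s (hsub hs)).mono hsub).fun_sub
        (((hasDerivAt_id' s).sub_const x).smul_const (f1 x)).hasDerivWithinAt
      rwa [one_smul] at this) k1 left_mem_uIcc right_mem_uIcc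
  simp only [sub_self, zero_smul, sub_zero, Real.norm_eq_abs, hxy] at k2
  have k3 : (y - x) • f1 x = f y - f x - (f y - (y - x) • f1 x - f x) := by abel
  have k4 : ‖(y - x) • f1 x‖ = h * ‖f1 x‖ := by rw [norm_smul, Real.norm_eq_abs, hxy]
  rw [← k4, k3]
  refine (norm_sub_le _ _).trans (add_le_add ((norm_sub_le _ _).trans ?_) k2)
  linarith [hM y hy, hM x hx]

/-- **interpolation** -/
theorem interp (c : ℕ → ℝ) (j : ℕ) : ∀ ε > (0 : ℝ), ∃ η > (0 : ℝ), ∀ f : ℝ → E,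
    ContDiffOn ℝ ∞ f (Icc 0 1) → (∀ x ∈ Icc (0 : ℝ) 1, ‖f x‖ ≤ η ∧ ∀ i, ‖jet i f x‖ ≤ c i) →
      ∀ x ∈ Icc (0 : ℝ) 1, ‖jet j f x‖ ≤ ε := by
  induction j with
  | zero => exact fun ε hε => ⟨ε, hε, fun f _ h x hx => (h x hx).1⟩
  | succ j ih =>
    intro ε hε
    set h := min (1 / 2) (ε / (2 * (|c (j + 2)| + 1))) with hh
    have h0 : 0 < h := by positivity
    obtain ⟨η, hη, H⟩ := ih (ε * h / 4) (by positivity)
    refine ⟨η, hη, fun f hf hb x hx => ?_⟩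
    have k1 := landau1 (fun y hy => jet_hd hf j hy) (fun y hy => jet_hd hf (j + 1) hy) (H f hf hb)
      (fun y hy => ((hb y hy).2 (j + 2)).trans (le_abs_self _)) h0 (min_le_left _ _) hx
    have k2 : h * (2 * (|c (j + 2)| + 1)) ≤ ε :=
      (le_div_iff₀ (by positivity)).1 (min_le_right _ _)
    have k3 : h * ‖jet (j + 1) f x‖ ≤ h * ε := by nlinarith [abs_nonneg (c (j + 2))]
    exact le_of_mul_le_mul_left k3 h0

theorem interp2 (c c' : ℕ → ℝ) (j : ℕ) {ε : ℝ} (hε : 0 < ε) : ∃ η > (0 : ℝ), ∀ f g : ℝ → E,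
    ContDiffOn ℝ ∞ f (Icc 0 1) → ContDiffOn ℝ ∞ g (Icc 0 1) →
      (∀ x ∈ Icc (0 : ℝ) 1, ‖f x - g x‖ ≤ η ∧ (∀ i, ‖jet i f x‖ ≤ c i) ∧ ∀ i, ‖jet i g x‖ ≤ c' i) →
      ∀ x ∈ Icc (0 : ℝ) 1, ‖jet j f x - jet j g x‖ ≤ ε := by
  obtain ⟨η, hη, H⟩ := interp (E := E) (fun i => c i + c' i) j ε hε
  refine ⟨η, hη, fun f g hf hg hb x hx => ?_⟩
  rw [← jet_sub hf hg j hx]
  refine H _ (hf.sub hg) (fun y hy => ⟨(hb y hy).1, fun i => ?_⟩) x hx
  rw [jet_sub hf hg i hy]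
  exact (norm_sub_le _ _).trans (add_le_add ((hb y hy).2.1 i) ((hb y hy).2.2 i))

end

variable {E : Type} [NormedAddCommGroup E] [InnerProductSpace ℝ E] [FiniteDimensional ℝ E]
  {S : Sys E}

/-- a solution with quantitative bounds -/
structure Sol (S : Sys E) (u0 : ℝ → E) (T : ℝ) (K : Set (ℝ × E)) (c : ℕ → ℝ) (U : ℝ → ℝ → E) :
    Prop where
  sol : IsSol S 0 T U
  init : ∀ x ∈ Icc (0 : ℝ) 1, U 0 x = u0 x
  bd : ∀ t ∈ Icc 0 T, ∀ x ∈ Icc (0 : ℝ) 1, (x, U t x) ∈ K ∧ ∀ j, ‖jet j (U t) x‖ ≤ c j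

omit [FiniteDimensional ℝ E] in
theorem Sol.mono {u0 : ℝ → E} {T T' : ℝ} {K : Set (ℝ × E)} {c : ℕ → ℝ} {U : ℝ → ℝ → E}
    (h : Sol S u0 T K c U) (hT : T' ≤ T) : Sol S u0 T' K c U :=
  ⟨h.sol.mono le_rfl hT, h.init, fun t ht => h.bd t ⟨ht.1, ht.2.trans hT⟩⟩

/-- gluing with overlap -/
theorem glue_sol {t1 s τ : ℝ} {U V : ℝ → ℝ → E} (hU : IsSol S 0 t1 U) (hV : IsSol S 0 τ V)
    (hs : 0 ≤ s) (hs1 : s < t1) (hτ : 0 < τ) (e : ∀ x ∈ Icc (0 : ℝ) 1, V 0 x = U s x) :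
    IsSol S 0 (s + τ) fun t => if t ≤ s then U t else V (t - s) := by
  have hm : s < min t1 (s + τ) := lt_min hs1 (by linarith)
  have h1 := (hU.mono hs (min_le_left _ (s + τ))).uniq ((hV.shift s).mono le_rfl (min_le_right _ _))
    fun x hx => by rw [sub_self, e x hx]
  refine IsSol.union (t1 := min t1 (s + τ)) (s0 := s)
    ((hU.mono le_rfl (min_le_left _ _)).congr fun t ht x hx => ?_)
    ((hV.shift s).congr fun t ht x hx => ?_) hm
  · split_ifs with h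
    · rfl
    · exact (h1 t ⟨(not_le.1 h).le, ht.2⟩ x hx).symm
  · split_ifs with h
    · exact h1 t ⟨ht.1, h.trans hm.le⟩ x hx
    · rfl

theorem Sol.glue {u0 : ℝ → E} {t1 s τ : ℝ} {K K' : Set (ℝ × E)} {c c' : ℕ → ℝ} {U V : ℝ → ℝ → E}
    (hU : Sol S u0 t1 K c U) (hV : Sol S (U s) τ K' c' V) (hs : 0 ≤ s) (hs1 : s < t1) (hτ : 0 < τ) :
    Sol S u0 (s + τ) (K ∪ K') (fun j => max (c j) (c' j))
      fun t => if t ≤ s then U t else V (t - s) := by
  refine ⟨glue_sol hU.sol hV.sol hs hs1 hτ hV.init, fun x hx => ?_, fun t ht x hx => ?_⟩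
  · rw [if_pos hs, hU.init x hx]
  · split_ifs with h
    · have := hU.bd t ⟨ht.1, h.trans hs1.le⟩ x hx
      exact ⟨Or.inl this.1, fun j => (this.2 j).trans (le_max_left _ _)⟩
    · have := hV.bd (t - s) ⟨by linarith, by linarith [ht.2]⟩ x hx
      exact ⟨Or.inr this.1, fun j => (this.2 j).trans (le_max_right _ _)⟩

variable {P : Type} [TopologicalSpace P] {u0 : P → ℝ → E} {p : P}

/-- bounded solutions with nearby data are close in every `C^j` -/
theorem close (hp : ∀ ε, 0 < ε → ∀ᶠ p' in 𝓝 p, ∀ x ∈ Icc (0 : ℝ) 1, ‖u0 p' x - u0 p x‖ ≤ ε)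
    {T : ℝ} {K K' : Set (ℝ × E)} {c : ℕ → ℝ} (c' : ℕ → ℝ) {U : ℝ → ℝ → E}
    (hU : Sol S (u0 p) T K c U) (hK : IsCompact K) (hKO : K ⊆ S.Om) (hK' : IsCompact K')
    (hKO' : K' ⊆ S.Om) (j : ℕ) {ε : ℝ} (hε : 0 < ε) :
    ∀ᶠ p' in 𝓝 p, ∀ T' ≤ T, ∀ U', Sol S (u0 p') T' K' c' U' → ∀ s ∈ Icc 0 T',
      ∀ x ∈ Icc (0 : ℝ) 1, ‖jet j (U' s) x - jet j (U s) x‖ ≤ ε := by
  obtain ⟨η, hη, H⟩ := interp2 (E := E) c' c j hε
  obtain ⟨L, hL0, hL⟩ := stab S (hK'.union hK) (union_subset hKO' hKO)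
    (max (c' 1) (max (c 1) (c 2)))
  have hE := Real.exp_pos (L * T)
  filter_upwards [hp (η / Real.exp (L * T)) (by positivity)] with p' hp' T' hT U' hU' s hs
  have hs' : s ∈ Icc 0 T := ⟨hs.1, hs.2.trans hT⟩
  refine H _ _ (SmR.slice hU'.sol.smooth hs) (SmR.slice hU.sol.smooth hs') fun x hx =>
    ⟨?_, (hU'.bd s hs x hx).2, (hU.bd s hs' x hx).2⟩
  have hb := (hU.mono hT).bd
  refine (hL 0 T' _ U' U hU'.sol (hU.mono hT).sol (fun t ht y hy =>
    ⟨Or.inl (hU'.bd t ht y hy).1, Or.inr (hb t ht y hy).1,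
    ((hU'.bd t ht y hy).2 1).trans (le_max_left _ _),
    ((hb t ht y hy).2 1).trans ((le_max_left _ _).trans (le_max_right _ _)),
    ((hb t ht y hy).2 2).trans ((le_max_right _ _).trans (le_max_right _ _))⟩)
    (fun y hy => by rw [hU'.init y hy, hU.init y hy]; exact hp' y hy) s hs x hx).trans ?_
  rw [div_mul_eq_mul_div, div_le_iff₀ hE]
  refine mul_le_mul_of_nonneg_left (Real.exp_le_exp.2 ?_) hη.le
  exact mul_le_mul_of_nonneg_left (by linarith [hs'.2]) hL0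

/-- nearby data have bounded solutions on the same time interval -/
theorem near (hloc : LocStmt) (hsm : ∀ p, ContDiffOn ℝ ∞ (u0 p) (Icc 0 1))
    (hbd : ∀ j, ∃ C, ∀ p, ∀ x ∈ Icc (0 : ℝ) 1, ‖jet j (u0 p) x‖ ≤ C)
    (hp : ∀ ε, 0 < ε → ∀ᶠ p' in 𝓝 p, ∀ x ∈ Icc (0 : ℝ) 1, ‖u0 p' x - u0 p x‖ ≤ ε)
    {T : ℝ} (hT : 0 ≤ T) {K : Set (ℝ × E)} {c : ℕ → ℝ} {U : ℝ → ℝ → E}
    (hU : Sol S (u0 p) T K c U) (hK : IsCompact K) (hKO : K ⊆ S.Om) :
    ∃ K' : Set (ℝ × E), IsCompact K' ∧ K' ⊆ S.Om ∧ ∃ c' : ℕ → ℝ,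
      ∀ᶠ p' in 𝓝 p, ∃ U', Sol S (u0 p') T K' c' U' := by
  obtain ⟨η, hη, hηO⟩ := hK.exists_cthickening_subset_open S.isOpen hKO
  obtain ⟨τ, hτ, K1, hK1, hKO1, H⟩ := hloc E S _ hK.cthickening hηO
    (|c 0| + |c 1| + |c 2| + |c 3| + 1)
  have hη1 : 0 < min η 1 := lt_min hη one_pos
  have start : ∀ c1 : ℕ → ℝ, ∃ c2 : ℕ → ℝ, ∀ s ∈ Icc 0 T, ∀ f : ℝ → E,
      ContDiffOn ℝ ∞ f (Icc 0 1) → (∀ x ∈ Icc (0 : ℝ) 1, ∀ j, ‖jet j f x‖ ≤ c1 j) →
      (∀ j ≤ 3, ∀ x ∈ Icc (0 : ℝ) 1, ‖jet j f x - jet j (U s) x‖ ≤ min η 1) →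
      ∃ V, Sol S f τ K1 c2 V := by
    intro c1
    obtain ⟨c2, h2⟩ := H c1
    refine ⟨c2, fun s hs f hf hb hc => ?_⟩
    refine (h2 f hf fun x hx => ⟨?_, fun j hj => ?_, hb x hx⟩).imp fun V h => ⟨h.1, h.2.1, h.2.2⟩
    · refine Metric.mem_cthickening_of_dist_le _ _ _ _ (hU.bd s hs x hx).1 ?_
      rw [Prod.dist_eq, dist_self, dist_eq_norm]
      exact max_le hη.le ((hc 0 (Nat.zero_le _) x hx).trans (min_le_left _ _))
    · have h6 := (norm_le_insert' (jet j f x) (jet j (U s) x)).trans (add_le_add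
        ((hU.bd s hs x hx).2 j) ((hc j hj x hx).trans (min_le_right _ _)))
      have := abs_nonneg (c 0); have := abs_nonneg (c 1)
      have := abs_nonneg (c 2); have := abs_nonneg (c 3)
      have := le_abs_self (c j)
      interval_cases j <;> linarith
  have ind : ∀ k : ℕ, ∃ K' : Set (ℝ × E), IsCompact K' ∧ K' ⊆ S.Om ∧ ∃ c' : ℕ → ℝ,
      ∀ᶠ p' in 𝓝 p, ∃ U', Sol S (u0 p') (min (k * (τ / 2)) T + τ) K' c' U' := by
    intro k
    induction k with
    | zero =>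
      choose c1 hc1 using hbd
      obtain ⟨c2, h2⟩ := start c1
      refine ⟨K1, hK1, hKO1, c2, ?_⟩
      have h3 : ∀ j, ∀ᶠ p' in 𝓝 p, ∀ x ∈ Icc (0 : ℝ) 1,
          ‖jet j (u0 p') x - jet j (U 0) x‖ ≤ min η 1 := fun j => by
        obtain ⟨δ, hδ, h4⟩ := interp2 (E := E) c1 c1 j hη1
        filter_upwards [hp δ hδ] with p' hp' x hx
        rw [jet_congr hU.init j hx]
        exact h4 _ _ (hsm p') (hsm p)
          (fun y hy => ⟨hp' y hy, fun i => hc1 i p' y hy, fun i => hc1 i p y hy⟩) x hx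
      filter_upwards [(eventually_all_finite (finite_le_nat 3)).2 fun j _ => h3 j] with p' hp'
      simpa [min_eq_left hT] using h2 0 ⟨le_rfl, hT⟩ _ (hsm p')
        (fun x hx j => hc1 j p' x hx) fun j hj => hp' j hj
    | succ k ih =>
      obtain ⟨K', hK', hKO', c', ih⟩ := ih
      obtain ⟨c2, h2⟩ := start c'
      refine ⟨K' ∪ K1, hK'.union hK1, union_subset hKO' hKO1, fun j => max (c' j) (c2 j), ?_⟩
      set s := min (((k + 1 : ℕ) : ℝ) * (τ / 2)) T with hs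
      have hs0 : 0 ≤ s := le_min (by positivity) hT
      have hsT : s ≤ T := min_le_right _ _
      have hs1 : s < min (k * (τ / 2)) T + τ := by
        rw [← min_add_add_right, lt_min_iff]
        refine ⟨(min_le_left _ _).trans_lt ?_, by linarith⟩
        push_cast; linarith
      filter_upwards [ih, (eventually_all_finite (finite_le_nat 3)).2 fun j _ =>
        close hp c' hU hK hKO hK' hKO' j hη1] with p' ⟨U', hU'⟩ hp'
      obtain ⟨V, hV⟩ := h2 s ⟨hs0, hsT⟩ (U' s) (SmR.slice hU'.sol.smooth ⟨hs0, hs1.le⟩)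
        (fun x hx => (hU'.bd s ⟨hs0, hs1.le⟩ x hx).2)
        fun j hj => hp' j hj s hsT U' (hU'.mono hs1.le) s ⟨hs0, le_rfl⟩
      exact ⟨_, hU'.glue hV hs0 hs1 hτ⟩
  obtain ⟨k, hk⟩ := exists_nat_ge (T / (τ / 2))
  rw [div_le_iff₀ (by positivity)] at hk
  obtain ⟨K', hK', hKO', c', h⟩ := ind k
  refine ⟨K', hK', hKO', c', h.mono fun p' ⟨U', hU'⟩ => ⟨U', hU'.mono ?_⟩⟩
  rw [min_eq_right hk]; linarith

end Crest.Agent.N207.S.Ex
end
end

-- ▼ part N207/S/Ex/Asm2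
section

/-!
Row 207, S0320, block EX (helper49): `LocStmt → FlowStmt`.
-/

set_option autoImplicit false

open Set Filter
open scoped Topology ContDiff

noncomputable section
namespace Crest.Agent.N207.S.Ex

variable {E : Type} [NormedAddCommGroup E] [InnerProductSpace ℝ E] [FiniteDimensional ℝ E]

/-- the domain of the flow -/
def dom (S : Sys E) {P : Type} (u0 : P → ℝ → E) : Set (P × ℝ) :=
  {y | 0 ≤ y.2 ∧ ∃ z : ℝ × (ℝ → ℝ → E), y.2 < z.1 ∧ IsSol S 0 z.1 z.2 ∧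
    ∀ x ∈ Icc (0 : ℝ) 1, z.2 0 x = u0 y.1 x}

open Classical in
/-- the flow -/
def flw (S : Sys E) {P : Type} (u0 : P → ℝ → E) (p : P) (t : ℝ) : ℝ → E :=
  if h : (p, t) ∈ dom S u0 then h.2.choose.2 t else u0 p

theorem flw_eq {S : Sys E} {P : Type} {u0 : P → ℝ → E} {p : P} {T : ℝ} {U : ℝ → ℝ → E}
    (hU : IsSol S 0 T U) (h0 : ∀ x ∈ Icc (0 : ℝ) 1, U 0 x = u0 p x) {t : ℝ} (ht : t ∈ Ico 0 T) :
    ∀ x ∈ Icc (0 : ℝ) 1, flw S u0 p t x = U t x := by
  have h : (p, t) ∈ dom S u0 := ⟨ht.1, (T, U), ht.2, hU, h0⟩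
  obtain ⟨h1, h2, h3⟩ := h.2.choose_spec
  rw [flw, dif_pos h]
  exact (h2.mono le_rfl h1.le).uniq (hU.mono le_rfl ht.2.le)
    (fun x hx => by rw [h3 x hx, h0 x hx]) t ⟨ht.1, le_rfl⟩

theorem flow_of_loc (hloc : LocStmt) : FlowStmt := by
  intro E _ _ _ S P _ u0 hsm hmem hbd hp
  have hsol : ∀ y ∈ dom S u0, ∃ T K c U, y.2 < T ∧ IsCompact K ∧ K ⊆ S.Om ∧
      Sol S (u0 y.1) T K c U := by
    rintro y ⟨h0, ⟨T, U⟩, h1, h2, h3⟩
    obtain ⟨K, hK, hKO, c, hc⟩ := h2.cpt (h0.trans_lt h1)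
    exact ⟨T, K, c, U, h1, hK, hKO, h2, h3, hc⟩
  have hz : ∀ p, (p, (0 : ℝ)) ∈ dom S u0 := by
    intro p
    choose c hc using hbd
    obtain ⟨τ, hτ, K', -, -, H⟩ := hloc E S ((fun x => (x, u0 p x)) '' Icc 0 1)
      (isCompact_Icc.image_of_continuousOn (continuousOn_id.prodMk (hsm p).continuousOn))
      (by rintro _ ⟨x, hx, rfl⟩; exact hmem p x hx) (|c 0| + |c 1| + |c 2| + |c 3|)
    obtain ⟨c', H⟩ := H c
    obtain ⟨U, h1, h2, -⟩ := H (u0 p) (hsm p) fun x hx =>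
      ⟨⟨x, hx, rfl⟩, fun j hj => by
        have := (hc j p x hx).trans (le_abs_self _)
        have := abs_nonneg (c 0); have := abs_nonneg (c 1)
        have := abs_nonneg (c 2); have := abs_nonneg (c 3)
        interval_cases j <;> linarith, fun j => hc j p x hx⟩
    exact ⟨le_rfl, (τ, U), hτ, h1, h2⟩
  refine ⟨dom S u0, flw S u0, hz, fun y hy => hy.1, ?_, fun y hy => ?_, ?_, fun p x hx => ?_,
    fun j => ?_, ?_⟩
  · rintro p t s ⟨-, z, h1, h2⟩ hs hst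
    exact ⟨hs, z, hst.trans_lt h1, h2⟩
  · obtain ⟨T, K, c, U, h1, hK, hKO, hU⟩ := hsol y hy
    obtain ⟨K', -, -, c', h⟩ := near hloc hsm hbd (hp y.1) (hy.1.trans h1.le) hU hK hKO
    filter_upwards [(continuous_fst.tendsto y).eventually h,
      (continuous_snd.tendsto y).eventually (gt_mem_nhds h1)] with z ⟨U', hU'⟩ h2 h3
    exact ⟨h3, (T, U'), h2, hU'.sol, hU'.init⟩
  · rintro p t ⟨-, ⟨T, U⟩, h1, h2, h3⟩ -
    exact (h2.mono le_rfl h1.le).congr fun s hs => flw_eq h2 h3 ⟨hs.1, hs.2.trans_lt h1⟩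
  · obtain ⟨-, ⟨T, U⟩, h1, h2, h3⟩ := hz p
    rw [flw_eq h2 h3 ⟨le_rfl, h1⟩ x hx, h3 x hx]
  · rintro ⟨y, x⟩ ⟨hy, hx⟩
    obtain ⟨T, K, c, U, h1, hK, hKO, hU⟩ := hsol y hy
    obtain ⟨K', hK', hKO', c', h⟩ := near hloc hsm hbd (hp y.1) (hy.1.trans h1.le) hU hK hKO
    rw [ContinuousWithinAt, Metric.tendsto_nhds]
    intro ε hε
    have h2 := close (hp y.1) c' hU hK hKO hK' hKO' j (ε := ε / 2) (by positivity)
    have t1 : Tendsto (fun z : (P × ℝ) × ℝ => z.1.1) (𝓝[dom S u0 ×ˢ Icc 0 1] (y, x)) (𝓝 y.1) :=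
      ((continuous_fst.comp continuous_fst).tendsto (y, x)).mono_left nhdsWithin_le_nhds
    have t2 : ∀ᶠ z : (P × ℝ) × ℝ in 𝓝[dom S u0 ×ˢ Icc 0 1] (y, x), z.1.2 < T :=
      (((continuous_snd.comp continuous_fst).tendsto (y, x)).mono_left
        nhdsWithin_le_nhds).eventually (gt_mem_nhds h1)
    have t3 : Tendsto (fun z : (P × ℝ) × ℝ => (z.1.2, z.2)) (𝓝[dom S u0 ×ˢ Icc 0 1] (y, x))
        (𝓝[Icc 0 T ×ˢ Icc 0 1] (y.2, x)) := by
      refine tendsto_nhdsWithin_iff.2 ⟨(((continuous_snd.comp continuous_fst).prodMk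
        continuous_snd).tendsto (y, x)).mono_left nhdsWithin_le_nhds, ?_⟩
      filter_upwards [t2, self_mem_nhdsWithin] with z a b using ⟨⟨b.1.1, a.le⟩, b.2⟩
    have t4 := Metric.tendsto_nhds.1 (((SmR.jet (hy.1.trans_lt h1) j hU.sol.smooth).continuousOn
      (y.2, x) ⟨⟨hy.1, h1.le⟩, hx⟩).tendsto.comp t3) (ε / 2) (by positivity)
    filter_upwards [t1.eventually h, t1.eventually h2, t2, t4, self_mem_nhdsWithin]
      with z ⟨U', hU'⟩ a2 a3 a4 a5
    rw [jet_congr (flw_eq hU'.sol hU'.init ⟨a5.1.1, a3⟩) j a5.2,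
      jet_congr (flw_eq hU.sol hU.init ⟨hy.1, h1⟩) j hx]
    have a6 := a2 T le_rfl U' hU' z.1.2 ⟨a5.1.1, a3.le⟩ z.2 a5.2
    rw [← dist_eq_norm] at a6
    refine (dist_triangle _ (jet j (U z.1.2) z.2) _).trans_lt ?_
    have a7 : dist (jet j (U z.1.2) z.2) (jet j (U y.2) x) < ε / 2 := a4
    linarith
  · intro p T hT hD K hK hKO C hb
    obtain ⟨τ, hτ, K', -, -, H⟩ := hloc E S K hK hKO C
    have hs : max 0 (T - τ / 2) ∈ Ico 0 T := ⟨le_max_left _ _, max_lt hT (by linarith)⟩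
    set s := max 0 (T - τ / 2) with hsd
    obtain ⟨T1, K1, c, U, h1, -, -, hU⟩ := hsol _ (hD s hs)
    have e := flw_eq hU.sol hU.init ⟨hs.1, h1⟩
    obtain ⟨c', H⟩ := H c
    obtain ⟨V, h2, h3, -⟩ := H (U s) (SmR.slice hU.sol.smooth ⟨hs.1, h1.le⟩) fun x hx =>
      ⟨by rw [← e x hx]; exact (hb s hs x hx).1,
        fun j hj => by rw [← jet_congr e j hx]; exact (hb s hs x hx).2 j hj,
        (hU.bd s ⟨hs.1, h1.le⟩ x hx).2⟩
    refine ⟨hT.le, (s + τ, _), ?_, glue_sol hU.sol h2 hs.1 h1 hτ h3, fun x hx => ?_⟩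
    · have : T - τ / 2 ≤ s := le_max_right _ _
      show T < s + τ
      linarith
    · show (if (0 : ℝ) ≤ s then U 0 else V (0 - s)) x = u0 p x
      rw [if_pos hs.1, hU.init x hx]

end Crest.Agent.N207.S.Ex
end
end

-- ▼ part N207/S/Ex/Pro2

/-!
Row 207, S0320, block EX (helper49): `CoreStmt → LocStmt → FlowStmt`.
-/

set_option autoImplicit false

open Set Filter
open scoped Topology ContDiff

noncomputable section
namespace Crest.Agent.N207.S.Ex

/-- a space of pairs -/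
structure Pair (E F : Type) [NormedAddCommGroup E] [NormedSpace ℝ E] [NormedAddCommGroup F]
    [NormedSpace ℝ F] where
  π1 : F →L[ℝ] E
  π2 : F →L[ℝ] E
  ι1 : E →L[ℝ] F
  ι2 : E →L[ℝ] F
  h11 : ∀ u, π1 (ι1 u) = u
  h12 : ∀ u, π1 (ι2 u) = 0
  h21 : ∀ u, π2 (ι1 u) = 0
  h22 : ∀ u, π2 (ι2 u) = u
  n1 : ∀ w, ‖π1 w‖ ≤ ‖w‖
  m1 : ∀ u, ‖ι1 u‖ ≤ ‖u‖
  m2 : ∀ u, ‖ι2 u‖ ≤ ‖u‖

variable {E : Type} [NormedAddCommGroup E] [InnerProductSpace ℝ E]

/-- the Euclidean pair space -/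
def pair2 (E : Type) [NormedAddCommGroup E] [InnerProductSpace ℝ E] :
    Pair E (WithLp 2 (E × E)) where
  π1 := WithLp.fstL 2 ℝ E E
  π2 := WithLp.sndL 2 ℝ E E
  ι1 := (WithLp.prodContinuousLinearEquiv 2 ℝ E E).symm.toContinuousLinearMap.comp (.inl ℝ E E)
  ι2 := (WithLp.prodContinuousLinearEquiv 2 ℝ E E).symm.toContinuousLinearMap.comp (.inr ℝ E E)
  h11 _ := rfl
  h12 _ := rfl
  h21 _ := rfl
  h22 _ := rfl
  n1 w := WithLp.norm_fst_le _ w
  m1 u := (WithLp.norm_toLp_fst 2 E E u).le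
  m2 u := (WithLp.norm_toLp_snd 2 E E u).le

variable {F : Type} [NormedAddCommGroup F] [InnerProductSpace ℝ F]

/-- the prolonged system -/
def Glob.core (G : Glob E) (Q : Pair E F) : Core F where
  b := G.b + 1
  hb := Nat.le_add_left 1 _
  a y := G.a (y.1, Q.π1 y.2)
  B y := Q.ι2.comp ((fderiv ℝ G.a (y.1, Q.π1 y.2) (1, Q.π2 y.2) • ContinuousLinearMap.id ℝ E +
    G.β ((y.1, Q.π1 y.2), Q.π2 y.2)).comp Q.π2)
  G y := Q.ι1 (G.Psi ((y.1, Q.π1 y.2), Q.π2 y.2) -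
      (G.a (y.1, Q.π1 y.2) * ((G.b : ℝ) + 1) * (1 - 2 * y.1)) • Q.π2 y.2) +
    Q.ι2 (fderiv ℝ G.Psi ((y.1, Q.π1 y.2), Q.π2 y.2) ((1, Q.π2 y.2), 0))
  ha := G.ha.comp (by fun_prop)
  hB := by
    have h1 : ContDiff ℝ ∞ fun y : ℝ × F => fderiv ℝ G.a (y.1, Q.π1 y.2) :=
      (G.ha.fderiv_right (m := ∞) (by simp)).comp (by fun_prop)
    have h2 : ContDiff ℝ ∞ fun y : ℝ × F => G.β ((y.1, Q.π1 y.2), Q.π2 y.2) :=
      G.hβ.comp (by fun_prop)
    exact contDiff_const.clm_comp ((((h1.clm_apply (by fun_prop)).smul contDiff_const).add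
      h2).clm_comp contDiff_const)
  hG := by
    have h1 : ContDiff ℝ ∞ fun y : ℝ × F => G.a (y.1, Q.π1 y.2) := G.ha.comp (by fun_prop)
    have h2 : ContDiff ℝ ∞ fun y : ℝ × F => G.Psi ((y.1, Q.π1 y.2), Q.π2 y.2) :=
      G.hPsi.comp (by fun_prop)
    have h3 : ContDiff ℝ ∞ fun y : ℝ × F => fderiv ℝ G.Psi ((y.1, Q.π1 y.2), Q.π2 y.2) :=
      (G.hPsi.fderiv_right (m := ∞) (by simp)).comp (by fun_prop)
    exact (Q.ι1.contDiff.comp (h2.sub (((h1.mul contDiff_const).mul (by fun_prop)).smul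
      (by fun_prop)))).add (Q.ι2.contDiff.comp (h3.clm_apply (by fun_prop)))
  apos _ := G.apos _

theorem Glob.core1 (G : Glob E) (Q : Pair E F) (x : ℝ) (w d1 d2 : F) :
    Q.π1 ((G.core Q).F (x, w) d1 d2) = G.FU x (Q.π1 w) (Q.π2 w) (Q.π1 d1) (Q.π1 d2) := by
  simp only [Core.F, Glob.core, Glob.FU, map_add, map_smul, ContinuousLinearMap.comp_apply, Q.h11,
    Q.h12, add_zero, smul_zero, Nat.cast_add, Nat.cast_one]

theorem Glob.core2 (G : Glob E) (Q : Pair E F) (x : ℝ) (w d1 d2 : F) :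
    Q.π2 ((G.core Q).F (x, w) d1 d2) = G.FP x (Q.π1 w) (Q.π2 w) (Q.π2 d1) (Q.π2 d2) := by
  simp only [Core.F, Glob.core, Glob.FP, map_add, map_smul, ContinuousLinearMap.comp_apply, Q.h21,
    Q.h22, zero_add, Nat.cast_add, Nat.cast_one, add_apply, smul_apply,
    ContinuousLinearMap.id_apply]
  module

theorem jet_add {V : Type*} [NormedAddCommGroup V] [NormedSpace ℝ V] {f g : ℝ → V}
    (hf : ContDiffOn ℝ ∞ f (Icc 0 1)) (hg : ContDiffOn ℝ ∞ g (Icc 0 1))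
    (j : ℕ) {x : ℝ} (hx : x ∈ Icc (0 : ℝ) 1) :
    jet j (fun y => f y + g y) x = jet j f x + jet j g x :=
  iteratedDerivWithin_add hx ud01 ((hf x hx).of_le (by exact_mod_cast le_top))
    ((hg x hx).of_le (by exact_mod_cast le_top))

theorem loc_of_core (hc : CoreStmt) : LocStmt := by
  intro E _ _ _ S K hK hKO C
  have : CompleteSpace E := FiniteDimensional.complete ℝ E
  obtain ⟨η, hη, hηO⟩ := hK.exists_cthickening_subset_open S.isOpen hKO
  obtain ⟨G, -, hG⟩ := ex_glob S Metric.isClosed_cthickening hηO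
  set Q := pair2 E
  obtain ⟨τ, hτ, H⟩ := hc _ (G.core Q) (C + C) η hη
  refine ⟨τ, hτ, _, hK.cthickening, hηO, fun c => ?_⟩
  obtain ⟨c', H⟩ := H fun j => 2 * ∑ i ∈ Finset.range (j + 2), |c i|
  refine ⟨c', fun u0 hu hb => ?_⟩
  obtain ⟨g, hg, eg⟩ := Gc.ext_univ (f := fun p : ℝ × ℝ => u0 p.2)
    (hu.comp contDiffOn_snd fun p hp => hp.2)
  set v : ℝ → E := fun x => g (0, x) with hv
  have sv : ContDiff ℝ ∞ v := hg.comp (by fun_prop)
  have ev : ∀ x ∈ Icc (0 : ℝ) 1, v x = u0 x := fun x hx => eg (0, x) hx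
  have sv' := contDiff_deriv sv
  have sW : ContDiff ℝ ∞ fun x => Q.ι1 (v x) + Q.ι2 (deriv v x) :=
    (Q.ι1.contDiff.comp sv).add (Q.ι2.contDiff.comp sv')
  have bW : ∀ i, ∀ x ∈ Icc (0 : ℝ) 1, ‖iteratedDeriv i (fun x => Q.ι1 (v x) + Q.ι2 (deriv v x)) x‖ ≤
      ‖jet i u0 x‖ + ‖jet (i + 1) u0 x‖ := by
    intro i x hx
    rw [← jet_global sW i hx, jet_add (f := fun x => Q.ι1 (v x))
      (g := fun x => Q.ι2 (deriv v x)) (Q.ι1.contDiff.comp sv).contDiffOn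
      (Q.ι2.contDiff.comp sv').contDiffOn i hx, jet_clm _ sv.contDiffOn i hx,
      jet_clm _ sv'.contDiffOn i hx, jet_global sv' i hx, ← iteratedDeriv_succ',
      ← jet_global sv _ hx, jet_congr ev _ hx, jet_congr ev _ hx]
    exact (norm_add_le _ _).trans (add_le_add (Q.m1 _) (Q.m2 _))
  obtain ⟨W, hW, h0, hB⟩ := H _ sW
    (fun i hi x hx => (bW i x hx).trans
      (add_le_add ((hb x hx).2.1 i (by omega)) ((hb x hx).2.1 (i + 1) (by omega))))
    (fun j i hi x hx => (bW i x hx).trans (by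
      have h1 : ∀ k < j + 2, ‖jet k u0 x‖ ≤ ∑ i ∈ Finset.range (j + 2), |c i| := fun k hk =>
        (((hb x hx).2.2 k).trans (le_abs_self _)).trans
          (Finset.single_le_sum (f := fun i => |c i|) (fun _ _ => abs_nonneg _)
            (Finset.mem_range.2 hk))
      linarith [h1 i (by omega), h1 (i + 1) (by omega)]))
  have sU : SmR 0 τ fun t x => Q.π1 (W t x) := Q.π1.contDiff.comp_contDiffOn hW.smooth
  have sP : SmR 0 τ fun t x => Q.π2 (W t x) := Q.π2.contDiff.comp_contDiffOn hW.smooth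
  have j1 : ∀ j, ∀ t ∈ Icc 0 τ, ∀ x ∈ Icc (0 : ℝ) 1,
      jet j (fun x => Q.π1 (W t x)) x = Q.π1 (jet j (W t) x) := fun j t ht x hx =>
    jet_clm _ (SmR.slice hW.smooth ht) j hx
  have j2 : ∀ j, ∀ t ∈ Icc 0 τ, ∀ x ∈ Icc (0 : ℝ) 1,
      jet j (fun x => Q.π2 (W t x)) x = Q.π2 (jet j (W t) x) := fun j t ht x hx =>
    jet_clm _ (SmR.slice hW.smooth ht) j hx
  have i1 : ∀ x ∈ Icc (0 : ℝ) 1, Q.π1 (W 0 x) = v x := fun x hx => by
    rw [h0 x hx, map_add, Q.h11, Q.h12, add_zero]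
  have eU : ∀ t ∈ Icc 0 τ, ∀ x ∈ Icc (0 : ℝ) 1, HasDerivWithinAt (fun s => Q.π1 (W s x))
      (G.FU x (Q.π1 (W t x)) (Q.π2 (W t x)) (jet 1 (fun x => Q.π1 (W t x)) x)
        (jet 2 (fun x => Q.π1 (W t x)) x)) (Icc 0 τ) t := fun t ht x hx => by
    rw [j1 1 t ht x hx, j1 2 t ht x hx, ← G.core1]
    exact Q.π1.hasFDerivAt.comp_hasDerivWithinAt t (hW.eqn t ht x hx)
  have con := G.constraint hτ sU sP eU
    (fun t ht x hx => by
      rw [j2 1 t ht x hx, j2 2 t ht x hx, ← G.core2]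
      exact Q.π2.hasFDerivAt.comp_hasDerivWithinAt t (hW.eqn t ht x hx))
    (fun x hx => by
      rw [jet_congr i1 1 hx, jet_global sv 1 hx, h0 x hx, map_add, Q.h21, Q.h22, zero_add,
        iteratedDeriv_one])
  have mem : ∀ t ∈ Icc 0 τ, ∀ x ∈ Icc (0 : ℝ) 1, (x, Q.π1 (W t x)) ∈ Metric.cthickening η K := by
    intro t ht x hx
    refine Metric.mem_cthickening_of_dist_le _ _ _ _ (hb x hx).1 ?_
    rw [Prod.dist_eq, dist_self, dist_eq_norm, ← ev x hx, ← i1 x hx, ← map_sub, h0 x hx]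
    exact max_le hη.le ((Q.n1 _).trans (hB t ht x hx).1)
  refine ⟨fun t x => Q.π1 (W t x), ⟨⟨sU, fun t ht x hx => ?_⟩, fun t ht x hx => hηO (mem t ht x hx)⟩,
    fun x hx => (i1 x hx).trans (ev x hx), fun t ht x hx => ⟨mem t ht x hx, fun j => ?_⟩⟩
  · refine HasDerivWithinAt.congr_deriv (eU t ht x hx) ?_
    have h1 : Q.π2 (W t x) = _ := con t ht x hx
    rw [h1, Glob.FU, Sys.F, ← (hG _ (mem t ht x hx)).1, ← (hG _ (mem t ht x hx)).2]
    module
  · rw [j1 j t ht x hx]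
    exact (Q.n1 _).trans ((hB t ht x hx).2 j)

/-- **block EX from the core statement** -/
theorem flow_of_core (hc : CoreStmt) : FlowStmt := flow_of_loc (loc_of_core hc)

end Crest.Agent.N207.S.Ex
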